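import Vale.Agent.P286EX6.Cm
import Vale.Agent.P286EXR.Low

/-!
# Equivariant modules on `{|y|² = f(u)}`: the multiplicity space reflects isomorphisms
-/

set_option linter.all false

namespace Vale.Agent.P286EX

open Matrix TensorProduct Vale.Agent.P286 Vale.Agent.P286E Vale.Agent.P286ES Vale.Agent.P286EXR

noncomputable section

variable {G : Grp} {K : GK G} {M N : Type} [AddCommGroup M] [Module ℂ M] [AddCommGroup N]
  [Module ℂ N]

/-- The operators: coordinates `y`, vector fields `nu`, the functions `φ = f'`, `ψ = 2 f''`, and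
the coefficients of `al f + be f'² = 1`. -/
structure Ops (M : Type) [AddCommGroup M] [Module ℂ M] where
  y : Fin 3 → Module.End ℂ M
  nu : Fin 3 → Module.End ℂ M
  φ : Module.End ℂ M
  ψ : Module.End ℂ M
  al : Module.End ℂ M
  be : Module.End ℂ M

/-- The relations. -/
structure Ops.Rel (o : Ops M) (L : Fin 3 → Module.End ℂ M) : Prop where
  pos : Pos L o.y
  tan : Tan L o.y o.nu o.φ o.ψ
  bez : ∀ m, o.al (qq o.y m) + o.be (o.φ (o.φ m)) = m

/-- The map `u` commutes with the operators. -/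
structure Ops.Hom (o : Ops M) (o' : Ops N) (u : M →ₗ[ℂ] N) : Prop where
  y : ∀ a m, u (o.y a m) = o'.y a (u m)
  nu : ∀ a m, u (o.nu a m) = o'.nu a (u m)
  φ : ∀ m, u (o.φ m) = o'.φ (u m)
  ψ : ∀ m, u (o.ψ m) = o'.ψ (u m)
  al : ∀ m, u (o.al m) = o'.al (u m)
  be : ∀ m, u (o.be m) = o'.be (u m)

namespace Ops

variable {o : Ops M} {o' : Ops N} {u : M →ₗ[ℂ] N} {L : Fin 3 → Module.End ℂ M}
  {L' : Fin 3 → Module.End ℂ N}

theorem Rel.of_inj (r : o'.Rel L') (h : o.Hom o' u) (hL : ∀ a m, u (L a m) = L' a (u m))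
    (hu : Function.Injective u) : o.Rel L := by
  refine ⟨⟨⟨fun a x => hu ?_, fun a x => hu ?_, fun a x => hu ?_⟩, fun a b x => hu ?_,
    fun x => hu ?_⟩, ⟨⟨fun a x => hu ?_, fun a x => hu ?_, fun a x => hu ?_⟩, fun a x => hu ?_,
    fun a b hab x => hu ?_, fun a x => hu ?_, fun a x => hu ?_, fun a x => hu ?_, fun a x => hu ?_,
    fun a x => hu ?_, fun a x => hu ?_⟩, fun x => hu ?_⟩ <;>
    simp only [qq, map_add, map_sub, map_zero, hL, h.y, h.nu, h.φ, h.ψ, h.al, h.be]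
  exacts [r.pos.vec.c0 a _, r.pos.vec.c1 a _, r.pos.vec.c2 a _, r.pos.comm a b _, r.pos.dot _,
    r.tan.vec.c0 a _, r.tan.vec.c1 a _, r.tan.vec.c2 a _, r.tan.c a _, r.tan.c' a b hab _,
    r.tan.φL a _, r.tan.φy a _, r.tan.ψy a _, r.tan.rot a _, r.tan.ξφ a _, r.tan.ξξ a _,
    (by simpa only [qq, map_add] using r.bez (u x))]

theorem Rel.of_surj (r : o.Rel L) (h : o.Hom o' u) (hL : ∀ a m, u (L a m) = L' a (u m))
    (hu : Function.Surjective u) : o'.Rel L' := by
  refine ⟨⟨⟨fun a x => ?_, fun a x => ?_, fun a x => ?_⟩, fun a b x => ?_,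
    fun x => ?_⟩, ⟨⟨fun a x => ?_, fun a x => ?_, fun a x => ?_⟩, fun a x => ?_,
    fun a b hab x => ?_, fun a x => ?_, fun a x => ?_, fun a x => ?_, fun a x => ?_,
    fun a x => ?_, fun a x => ?_⟩, fun x => ?_⟩ <;> obtain ⟨x, rfl⟩ := hu x <;>
    simp only [qq, ← map_add u, ← map_sub u, ← hL, ← h.y, ← h.nu, ← h.φ, ← h.ψ, ← h.al, ← h.be]
  exacts [congrArg u (r.pos.vec.c0 a _), congrArg u (r.pos.vec.c1 a _),
    congrArg u (r.pos.vec.c2 a _), congrArg u (r.pos.comm a b _),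
    (congrArg u (r.pos.dot _)).trans (map_zero u),
    congrArg u (r.tan.vec.c0 a _), congrArg u (r.tan.vec.c1 a _), congrArg u (r.tan.vec.c2 a _),
    congrArg u (r.tan.c a _), congrArg u (r.tan.c' a b hab _), congrArg u (r.tan.φL a _),
    congrArg u (r.tan.φy a _), congrArg u (r.tan.ψy a _), congrArg u (r.tan.rot a _),
    congrArg u (r.tan.ξφ a _), congrArg u (r.tan.ξξ a _), congrArg u (r.bez x)]

/-- The restriction of an operator to the kernel. -/
def kr (u : M →ₗ[ℂ] N) (f : Module.End ℂ M) (f' : Module.End ℂ N) (h : ∀ m, u (f m) = f' (u m)) :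
    Module.End ℂ (LinearMap.ker u) :=
  f.restrict fun m hm => by rw [LinearMap.mem_ker, h, LinearMap.mem_ker.1 hm, map_zero]

/-- The operator on the cokernel. -/
def ck (u : M →ₗ[ℂ] N) (f : Module.End ℂ M) (f' : Module.End ℂ N) (h : ∀ m, u (f m) = f' (u m)) :
    Module.End ℂ (N ⧸ LinearMap.range u) :=
  (LinearMap.range u).mapQ (LinearMap.range u) f' (by
    rintro _ ⟨m, rfl⟩
    exact ⟨f m, h m⟩)

/-- The operators on the kernel. -/
def Hom.ker (h : o.Hom o' u) : Ops (LinearMap.ker u) :=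
  ⟨fun a => kr u _ _ (h.y a), fun a => kr u _ _ (h.nu a), kr u _ _ h.φ, kr u _ _ h.ψ,
    kr u _ _ h.al, kr u _ _ h.be⟩

/-- The operators on the cokernel. -/
def Hom.cok (h : o.Hom o' u) : Ops (N ⧸ LinearMap.range u) :=
  ⟨fun a => ck u _ _ (h.y a), fun a => ck u _ _ (h.nu a), ck u _ _ h.φ, ck u _ _ h.ψ,
    ck u _ _ h.al, ck u _ _ h.be⟩

theorem Hom.ker_hom (h : o.Hom o' u) : h.ker.Hom o (LinearMap.ker u).subtype :=
  ⟨fun _ _ => rfl, fun _ _ => rfl, fun _ => rfl, fun _ => rfl, fun _ => rfl, fun _ => rfl⟩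

theorem Hom.cok_hom (h : o.Hom o' u) : o'.Hom h.cok (LinearMap.range u).mkQ :=
  ⟨fun _ _ => rfl, fun _ _ => rfl, fun _ => rfl, fun _ => rfl, fun _ => rfl, fun _ => rfl⟩

end Ops

theorem Em.vanish {U : Rep K} (hU : U.Low) (μ : Fin 3 → Module.End ℂ M)
    (ρ : M →ₗ[ℂ] K.O.R ⊗[ℂ] N) (hρ : Function.Injective ρ)
    (h : ∀ a m, ρ (μ a m) = dT (K.L a) N (ρ m)) {o : Ops M} (r : o.Rel (nm K μ))
    (h0 : ∀ η : Fin U.n → M, (∀ a k, μ a (η k) = ∑ l, U.dr a l k • η l) → η = 0) (m : M) :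
    m = 0 := by
  have key : ∀ m : M, μ 0 m + Complex.I • μ 1 m = 0 →
      ((2 * Complex.I / K.κ) • μ 2 m = 0 ∨ (2 * Complex.I / K.κ) • μ 2 m = m) → m = 0 := by
    intro m h1 h2
    by_contra hm
    obtain ⟨η, h3, h4⟩ := hU M N μ ρ hρ h m hm h1 h2
    exact h3 (h0 η h4)
  refine gen_tan (vec_of K (mu_br K hρ h)) (mu_lf K hρ h) r.pos r.tan (fun m h1 h2 => ?_)
    (fun m hm => ?_) (fun m hm => ?_) m
  · rw [← r.bez m, h1, h2, map_zero, map_zero, add_zero]
  · have h1 : ∀ a, μ a m = 0 := fun a => smul_cancel (inv_ne_zero K.κ_ne) (hm a)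
    exact key m (by rw [h1, h1, smul_zero, add_zero]) (Or.inl (by rw [h1, smul_zero]))
  · have h1 := hm.e
    have h2 := hm.h
    rw [oE_apply, nm_apply, nm_apply, smul_comm Complex.I K.κ⁻¹, ← smul_add] at h1
    rw [oH_apply, nm_apply, smul_smul, ← div_eq_mul_inv, one_smul] at h2
    exact key m (smul_cancel (inv_ne_zero K.κ_ne) (smul_cancel Complex.I_ne_zero h1)) (Or.inr h2)

/-- The cokernel of an equivariant map. -/
def CM.Hom.cok {E : CM K M} {E' : CM K N} {u : M →ₗ[ℂ] N} (h : CM.Hom E E' u) :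
    CM K (N ⧸ LinearMap.range u) where
  mu a := Ops.ck u _ _ (h.mu a)
  rho := (LinearMap.range u).liftQ ((LinearMap.range u).mkQ.lTensor K.O.R ∘ₗ E'.rho) (by
    rintro _ ⟨m, rfl⟩
    rw [LinearMap.mem_ker, LinearMap.comp_apply, h, ← LinearMap.comp_apply,
      ← LinearMap.lTensor_comp, LinearMap.range_mkQ_comp, LinearMap.lTensor_zero,
      LinearMap.zero_apply])
  one x := by
    obtain ⟨x, rfl⟩ := (LinearMap.range u).mkQ_surjective x
    exact (ctr_lTensor _ _ _).trans (congrArg _ (E'.one x))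
  L a x := by
    obtain ⟨x, rfl⟩ := (LinearMap.range u).mkQ_surjective x
    exact (congrArg ((LinearMap.range u).mkQ.lTensor K.O.R) (E'.L a x)).trans (Em.lT_dT _ _ _)
  R a x := by
    obtain ⟨x, rfl⟩ := (LinearMap.range u).mkQ_surjective x
    refine Eq.trans ?_ ((congrArg ((LinearMap.range u).mkQ.lTensor K.O.R) (E'.R a x)).trans
      (Em.lT_dT _ _ _))
    change LinearMap.lTensor _ _ (LinearMap.lTensor _ _ (E'.rho x)) = _
    rw [← LinearMap.comp_apply, ← LinearMap.comp_apply (LinearMap.lTensor _ _),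
      ← LinearMap.lTensor_comp, ← LinearMap.lTensor_comp]
    rfl

theorem CM.Hom.cok_hom {E : CM K M} {E' : CM K N} {u : M →ₗ[ℂ] N} (h : CM.Hom E E' u) :
    CM.Hom E' h.cok (LinearMap.range u).mkQ := fun _ => rfl

/-- A rational representation with the operators of a module on `{|y|² = f(u)}`. -/
structure EM (K : GK G) (M : Type) [AddCommGroup M] [Module ℂ M] extends CM K M, Ops M where
  rel : toOps.Rel (nm K mu)

namespace EM

variable {U : Rep K} {E : EM K M} {E' : EM K N} {u : M →ₗ[ℂ] N}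

/-- The map `u` is equivariant and commutes with the operators. -/
structure Hom (E : EM K M) (E' : EM K N) (u : M →ₗ[ℂ] N) : Prop where
  cm : CM.Hom E.toCM E'.toCM u
  ops : Ops.Hom E.toOps E'.toOps u

/-- A module with zero multiplicity space is zero. -/
theorem eq_zero (hU : U.Low) (E : EM K M) (h : ∀ η ∈ E.Inv U, η = 0) (m : M) : m = 0 :=
  Em.vanish hU E.mu E.rho E.rho_inj E.L E.rel (fun η hη => h η ((E.mem_Inv_iff U).2 hη)) m

theorem Hom.inj (hU : U.Low) (h : Hom E E' u) (hi : ∀ η ∈ E.Inv U, u ∘ η = 0 → η = 0) :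
    Function.Injective u := by
  refine (injective_iff_map_eq_zero u).2 fun m hm => ?_
  have h1 := Em.vanish hU (fun a => Ops.kr u _ _ (h.cm.mu a)) (E.rho ∘ₗ (LinearMap.ker u).subtype)
    (E.rho_inj.comp Subtype.val_injective) (fun a m => E.L a m)
    (E.rel.of_inj h.ops.ker_hom (fun _ _ => rfl) Subtype.val_injective) (fun η hη => by
      have h2 := hi (fun k => (η k : M)) ((E.mem_Inv_iff U).2 fun a k => by
        have h3 := congrArg Subtype.val (hη a k)
        rw [Submodule.coe_sum] at h3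
        exact h3) (funext fun k => (η k).2)
      exact funext fun k => Subtype.ext (congrFun h2 k)) ⟨m, hm⟩
  exact congrArg Subtype.val h1

theorem Hom.surj (hU : U.Low) (h : Hom E E' u)
    (hs : ∀ η ∈ E'.Inv U, ∃ ζ : Fin U.n → M, u ∘ ζ = η) : Function.Surjective u := by
  intro x
  have h1 := Em.vanish hU h.cm.cok.mu h.cm.cok.rho h.cm.cok.rho_inj h.cm.cok.L
    (E'.rel.of_surj h.ops.cok_hom (fun _ _ => rfl) (LinearMap.range u).mkQ_surjective)
    (fun η hη => by
      obtain ⟨ζ, h2, rfl⟩ := CM.inv_lift U h.cm.cok_hom ((h.cm.cok.mem_Inv_iff U).2 hη)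
        fun k => (LinearMap.range u).mkQ_surjective _
      obtain ⟨ξ, rfl⟩ := hs ζ h2
      exact funext fun k => (Submodule.Quotient.mk_eq_zero _).2 ⟨ξ k, rfl⟩)
    ((LinearMap.range u).mkQ x)
  exact (Submodule.Quotient.mk_eq_zero _).1 h1

/-- The multiplicity space reflects isomorphisms. -/
theorem Hom.refl (hU : U.Low) (h : Hom E E' u) (hb : Function.Bijective (h.cm.map U)) :
    Function.Bijective u :=
  ⟨h.inj hU fun η hη h0 => congrArg Subtype.val
      ((injective_iff_map_eq_zero _).1 hb.1 ⟨η, hη⟩ (Subtype.ext h0)),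
    h.surj hU fun η hη => by
      obtain ⟨ζ, hζ⟩ := hb.2 ⟨η, hη⟩
      exact ⟨ζ.1, congrArg Subtype.val hζ⟩⟩

end EM

/-! ### Base change -/

theorem Em.retract {C C' P Q P' Q' : Type} [CommRing C] [CommRing C'] [Algebra C C']
    [AddCommGroup P] [Module C P] [AddCommGroup Q] [Module C Q]
    [AddCommGroup P'] [Module C P'] [Module C' P'] [IsScalarTower C C' P']
    [AddCommGroup Q'] [Module C Q'] [Module C' Q'] [IsScalarTower C C' Q']
    {t : P →ₗ[C] P'} (ht : IsBaseChange C' t) (s : Q →ₗ[C] Q') (i : Q →ₗ[C] P) (p : P →ₗ[C] Q)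
    (i' : Q' →ₗ[C'] P') (p' : P' →ₗ[C'] Q') (hp : ∀ x, p (i x) = x) (hp' : ∀ x, p' (i' x) = x)
    (e : ∀ x, i' (s x) = t (i x)) (e' : ∀ x, p' (t x) = s (p x)) : IsBaseChange C' s := by
  let Φ : C' ⊗[C] Q →ₗ[C'] Q' := (TensorProduct.isBaseChange C Q C').lift s
  have hΦ : ∀ x, Φ (1 ⊗ₜ x) = s x := (TensorProduct.isBaseChange C Q C').lift_eq s
  have h1 : i' ∘ₗ Φ = ht.equiv.toLinearMap ∘ₗ i.baseChange C' :=
    (TensorProduct.isBaseChange C Q C').algHom_ext _ _ fun x => by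
      change i' (Φ (1 ⊗ₜ x)) = ht.equiv (1 ⊗ₜ i x)
      rw [hΦ, e, ht.equiv_tmul, one_smul]
  have h2 : p' ∘ₗ ht.equiv.toLinearMap = Φ ∘ₗ p.baseChange C' :=
    (TensorProduct.isBaseChange C P C').algHom_ext _ _ fun x => by
      change p' (ht.equiv (1 ⊗ₜ x)) = Φ (1 ⊗ₜ p x)
      rw [hΦ, ht.equiv_tmul, one_smul, e']
  have h3 : ∀ z, p.baseChange C' (i.baseChange C' z) = z := fun z => by
    rw [← LinearMap.comp_apply, ← LinearMap.baseChange_comp,
      show p ∘ₗ i = LinearMap.id from LinearMap.ext hp, LinearMap.baseChange_id, LinearMap.id_apply]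
  refine IsBaseChange.of_equiv (LinearEquiv.ofBijective Φ ⟨fun z w hzw => ?_, fun x => ?_⟩) hΦ
  · have h4 : ht.equiv (i.baseChange C' z) = ht.equiv (i.baseChange C' w) :=
      (LinearMap.congr_fun h1 z).symm.trans ((congrArg i' hzw).trans (LinearMap.congr_fun h1 w))
    rw [← h3 z, ht.equiv.injective h4, h3]
  · obtain ⟨z, hz⟩ := ht.equiv.surjective (i' x)
    exact ⟨_, (LinearMap.congr_fun h2 z).symm.trans ((congrArg p' hz).trans (hp' x))⟩

namespace CM

variable {C C' : Type} [CommRing C] [CommRing C'] [Module C M] [SMulCommClass C ℂ M]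

/-- The action of the ring `C` is equivariant. -/
def Lin (E : CM K M) (C : Type) [CommRing C] [Module C M] [SMulCommClass C ℂ M] : Prop :=
  ∀ c : C, Hom E E (DistribMulAction.toLinearMap ℂ M c)

variable {E : CM K M} (U : Rep K)

/-- The multiplicity space as a module over `C`. -/
def Lin.inv (h : E.Lin C) : Submodule C (Fin U.n → M) where
  carrier := E.Inv U
  add_mem' := (E.Inv U).add_mem
  zero_mem' := (E.Inv U).zero_mem
  smul_mem' c _ hη := (h c).inv U hη

theorem Lin.mem_inv (h : E.Lin C) {η : Fin U.n → M} : η ∈ h.inv U ↔ η ∈ E.Inv U := Iff.rfl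

/-- The Reynolds operator as a `C`-linear map. -/
def Lin.rey (h : E.Lin C) : (Fin U.n → M) →ₗ[C] h.inv U where
  toFun η := ⟨E.rey U η, E.rey_mem U η⟩
  map_add' η ζ := Subtype.ext (map_add _ η ζ)
  map_smul' c η := Subtype.ext ((h c).rey U η)

variable [Algebra C C'] [Module C N] [Module C' N] [IsScalarTower C C' N] [SMulCommClass C' ℂ N]
  {E' : CM K N}

/-- The map on multiplicity spaces. -/
def Lin.map (h : E.Lin C) (h' : E'.Lin C') (t : M →ₗ[C] N) (t' : M →ₗ[ℂ] N) (e : ∀ m, t m = t' m)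
    (ht : Hom E E' t') : h.inv U →ₗ[C] h'.inv U where
  toFun η := ⟨t ∘ η.1, (funext fun k => (e _).symm : t' ∘ η.1 = t ∘ η.1) ▸ ht.inv U η.2⟩
  map_add' η ζ := Subtype.ext (funext fun k => map_add t _ _)
  map_smul' c η := Subtype.ext (funext fun k => map_smul t c _)

/-- The multiplicity space commutes with base change. -/
theorem Lin.baseChange (h : E.Lin C) (h' : E'.Lin C') (t : M →ₗ[C] N) (t' : M →ₗ[ℂ] N)
    (e : ∀ m, t m = t' m) (ht : Hom E E' t') (hb : IsBaseChange C' t) :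
    IsBaseChange C' (h.map U h' t t' e ht) := by
  have e1 : ∀ η : Fin U.n → M, t ∘ η = t' ∘ η := fun η => funext fun k => e _
  exact Em.retract (hb.finitePow (Fin U.n)) _ (h.inv U).subtype (h.rey U) (h'.inv U).subtype
    (h'.rey U) (fun x => Subtype.ext (E.rey_of_mem U x.2))
    (fun x => Subtype.ext (E'.rey_of_mem U x.2)) (fun _ => rfl) fun η => Subtype.ext (by
      change E'.rey U (t ∘ η) = t ∘ E.rey U η
      rw [e1, e1, ht.rey])

end CM

end

end Vale.Agent.P286EX
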