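import Vale.Agent.P286EC.Gen
import Vale.Agent.P286EX6.Em

/-!
# Vector fields on the chart `{|y|² = f(u)}`
-/

set_option linter.all false

namespace Vale.Agent.P286EX

open CategoryTheory Matrix TensorProduct Vale.Agent.P286 Vale.Agent.P286.St Vale.Agent.P286E
  Vale.Agent.P286EC Vale.Agent.P286ES Vale.Agent.P286EXR TrivSqZeroExt

noncomputable section

variable {I : Type} [SmallCategory I] {D : CD I} (xd : XD D) (i : I)

theorem ex_der {C A : Type} [CommRing C] [Algebra ℂ C] [CommRing A] [Algebra ℂ A] (x : C →ₐ[ℂ] A)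
    (Y : Fin 3 → A) (f : C) (pd : Derivation ℂ C C) (sq : Y ⬝ᵥ Y = x f)
    (lift : ∀ (B : Type) [CommRing B] [Algebra ℂ B] (x' : C →ₐ[ℂ] B) (Y' : Fin 3 → B),
      Y' ⬝ᵥ Y' = x' f → ∃ φ : A →ₐ[ℂ] B, (∀ z, φ (x z) = x' z) ∧ ∀ a, φ (Y a) = Y' a)
    (ext : ∀ φ ψ : A →ₐ[ℂ] A, (∀ z, φ (x z) = ψ (x z)) → (∀ a, φ (Y a) = ψ (Y a)) → φ = ψ)
    (p : A) (v : Fin 3 → A) (h : 2 * (Y ⬝ᵥ v) = p * x (pd f)) :
    ∃ w : Derivation ℂ A A, (∀ z, w (x z) = p * x (pd z)) ∧ ∀ a, w (Y a) = v a := by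
  let x' : C →ₐ[ℂ] TrivSqZeroExt A A :=
    { toFun := fun z => TrivSqZeroExt.inl (x z) + TrivSqZeroExt.inr (p * x (pd z))
      map_one' := TrivSqZeroExt.ext (by simp) (by simp)
      map_mul' := fun a b => TrivSqZeroExt.ext (by simp) (by simp; ring)
      map_zero' := TrivSqZeroExt.ext (by simp) (by simp)
      map_add' := fun a b => TrivSqZeroExt.ext (by simp) (by simp [mul_add])
      commutes' := fun c => TrivSqZeroExt.ext (by simp [algebraMap_eq_inl'])
        (by simp [algebraMap_eq_inl']) }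
  obtain ⟨φ, h1, h2⟩ := lift (TrivSqZeroExt A A) x'
    (fun a => TrivSqZeroExt.inl (Y a) + TrivSqZeroExt.inr (v a)) (by
      simp only [dotProduct, Fin.sum_univ_three] at h sq ⊢
      refine TrivSqZeroExt.ext ?_ ?_
      · simpa [x'] using sq
      · have h2 : (x' f).snd = p * x (pd f) := by simp [x']
        rw [h2, ← h]
        simp
        ring)
  have e : (fstHom ℂ A A).comp φ = AlgHom.id ℂ _ :=
    ext _ _ (fun z => by rw [AlgHom.comp_apply, h1]; simp [x'])
      fun a => by rw [AlgHom.comp_apply, h2]; simp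
  exact ⟨derOf φ (AlgHom.congr_fun e), fun z => (congrArg snd (h1 z)).trans (zero_add _),
    fun a => (congrArg snd (h2 a)).trans (zero_add _)⟩

/-- The function `f'`. -/
def zf1 : OZ D i := zx D i (xd.pd i (D.f i))

/-- The function `2 f''`. -/
def zf2 : OZ D i := 2 * zx D i (xd.pd i (xd.pd i (D.f i)))

theorem ex_zder (p : OZ D i) (v : Fin 3 → OZ D i) (h : 2 * (zy D i ⬝ᵥ v) = p * zf1 xd i) :
    ∃ w : Derivation ℂ (OZ D i) (OZ D i), (∀ z, w (zx D i z) = p * zx D i (xd.pd i z)) ∧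
      ∀ a, w (zy D i a) = v a :=
  ex_der (zx D i) (zy D i) (D.f i) (xd.pd i) (zy_sq i)
    (fun _ _ _ x' Y' h => ⟨zlift x' Y' h, zlift_x x' Y' h, zlift_y x' Y' h⟩)
    (fun _ _ => z_ext) p v h

/-- The vector field `p ∂_u + ∑ v_a ∂_a`. -/
def zder (p : OZ D i) (v : Fin 3 → OZ D i) (h : 2 * (zy D i ⬝ᵥ v) = p * zf1 xd i) :
    Derivation ℂ (OZ D i) (OZ D i) := (ex_zder xd i p v h).choose

theorem zder_x (p : OZ D i) (v : Fin 3 → OZ D i) (h) (z : D.C i) :
    zder xd i p v h (zx D i z) = p * zx D i (xd.pd i z) := (ex_zder xd i p v h).choose_spec.1 z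

theorem zder_y (p : OZ D i) (v : Fin 3 → OZ D i) (h) (a : Fin 3) :
    zder xd i p v h (zy D i a) = v a := (ex_zder xd i p v h).choose_spec.2 a

variable {i} in
theorem z_ind {P : OZ D i → Prop} (x : OZ D i) (h1 : ∀ z, P (zx D i z))
    (h2 : ∀ x y, P x → P y → P (x + y)) (h3 : ∀ x a, P x → P (x * zy D i a)) : P x := by
  obtain ⟨p, rfl⟩ := Ideal.Quotient.mk_surjective x
  change P (zmk D i p)
  induction p using MvPolynomial.induction_on with
  | C z => exact h1 z
  | add p q hp hq => rw [map_add]; exact h2 _ _ hp hq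
  | mul_X p a hp => rw [map_mul]; exact h3 _ a hp

variable {i} in
/-- Derivations along a homomorphism are determined by their values on the generators. -/
theorem zder_ext' {B : Type} [CommRing B] [Algebra ℂ B] (φ : OZ D i →ₐ[ℂ] B)
    (u v : OZ D i →ₗ[ℂ] B) (hu : ∀ x y, u (x * y) = φ x * u y + φ y * u x)
    (hv : ∀ x y, v (x * y) = φ x * v y + φ y * v x) (hx : ∀ z, u (zx D i z) = v (zx D i z))
    (hy : ∀ a, u (zy D i a) = v (zy D i a)) (x : OZ D i) : u x = v x := by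
  induction x using z_ind with
  | h1 z => exact hx z
  | h2 x y h h' => rw [map_add, map_add, h, h']
  | h3 x a h => rw [hu, hv, h, hy]

variable {i} in
theorem zder_ext {u v : Derivation ℂ (OZ D i) (OZ D i)} (hx : ∀ z, u (zx D i z) = v (zx D i z))
    (hy : ∀ a, u (zy D i a) = v (zy D i a)) : u = v :=
  Derivation.ext (zder_ext' (AlgHom.id ℂ _) u.toLinearMap v.toLinearMap u.leibniz v.leibniz hx hy)

/-- The infinitesimal rotations. -/
def rot (a : Fin 3) : Derivation ℂ (OZ D i) (OZ D i) :=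
  zder xd i 0 (fun b => ∑ c, eps a b c • zy D i c) (by
    fin_cases a <;> simp [dotProduct, Fin.sum_univ_three, eps] <;> ring)

/-- The vector fields `f' ∂_a + 2 y_a ∂_u`. -/
def nuV (a : Fin 3) : Derivation ℂ (OZ D i) (OZ D i) :=
  zder xd i (2 * zy D i a) (Pi.single a (zf1 xd i)) (by rw [dotProduct_single, mul_assoc])

theorem rot_x (a : Fin 3) (z : D.C i) : rot xd i a (zx D i z) = 0 :=
  (zder_x xd i _ _ _ z).trans (zero_mul _)

theorem rot_y (a b : Fin 3) : rot xd i a (zy D i b) = ∑ c, eps a b c • zy D i c :=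
  zder_y xd i _ _ _ b

theorem nuV_x (a : Fin 3) (z : D.C i) :
    nuV xd i a (zx D i z) = 2 * zy D i a * zx D i (xd.pd i z) := zder_x xd i _ _ _ z

theorem nuV_y (a b : Fin 3) : nuV xd i a (zy D i b) = if b = a then zf1 xd i else 0 :=
  (zder_y xd i _ _ _ b).trans (Pi.single_apply _ _ _)

theorem rot_y0 (a : Fin 3) : rot xd i a (zy D i a) = 0 := by
  rw [rot_y]; fin_cases a <;> simp [Fin.sum_univ_three, eps]

theorem rot_y1 (a : Fin 3) : rot xd i a (zy D i (a + 1)) = zy D i (a + 2) := by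
  rw [rot_y]; fin_cases a <;> simp [Fin.sum_univ_three, eps]

theorem rot_y2 (a : Fin 3) : rot xd i a (zy D i (a + 2)) = - zy D i (a + 1) := by
  rw [rot_y]; fin_cases a <;> simp [Fin.sum_univ_three, eps]

theorem der_two {A : Type} [CommRing A] [Algebra ℂ A] (w : Derivation ℂ A A) (x : A) :
    w (2 * x) = 2 * w x := by rw [two_mul, two_mul, map_add]

theorem rot_f1 (a : Fin 3) : rot xd i a (zf1 xd i) = 0 := rot_x xd i a _

theorem nuV_f1 (a : Fin 3) : nuV xd i a (zf1 xd i) = zf2 xd i * zy D i a :=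
  (nuV_x xd i a _).trans (by rw [zf2]; ring)

theorem fin3 (a b : Fin 3) : b = a ∨ b = a + 1 ∨ b = a + 2 := by revert a b; decide

theorem f01 (a : Fin 3) : a ≠ a + 1 := by revert a; decide
theorem f02 (a : Fin 3) : a ≠ a + 2 := by revert a; decide
theorem f12 (a : Fin 3) : a + 1 ≠ a + 2 := by revert a; decide

theorem rot_nu (a b : Fin 3) (w : Derivation ℂ (OZ D i) (OZ D i))
    (hx : ∀ z, w (zx D i z) = 2 * rot xd i a (zy D i b) * zx D i (xd.pd i z))
    (hy : ∀ c, w (zy D i c) = - nuV xd i b (rot xd i a (zy D i c))) :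
    ⁅rot xd i a, nuV xd i b⁆ = w :=
  zder_ext (fun z => by
    rw [Derivation.commutator_apply, nuV_x, rot_x, map_zero, sub_zero, hx, Derivation.leibniz,
      rot_x, der_two, smul_zero, zero_add, smul_eq_mul, mul_comm]) fun c => by
    rw [Derivation.commutator_apply, nuV_y, hy]
    split_ifs
    · rw [rot_f1, zero_sub]
    · rw [map_zero, zero_sub]

theorem rot_nu0 (a : Fin 3) : ⁅rot xd i a, nuV xd i a⁆ = 0 :=
  rot_nu xd i a a 0 (fun z => by rw [rot_y0]; simp) fun c => by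
    rcases fin3 a c with rfl | rfl | rfl
    · rw [rot_y0]; simp
    · rw [rot_y1, nuV_y, if_neg (f02 a).symm]; simp
    · rw [rot_y2, map_neg, nuV_y, if_neg (f01 a).symm]; simp

theorem rot_nu1 (a : Fin 3) : ⁅rot xd i a, nuV xd i (a + 1)⁆ = nuV xd i (a + 2) :=
  rot_nu xd i a _ _ (fun z => by rw [rot_y1, nuV_x]) fun c => by
    rcases fin3 a c with rfl | rfl | rfl
    · rw [rot_y0, nuV_y, if_neg (f02 c)]; simp
    · rw [rot_y1, nuV_y, nuV_y, if_neg (f12 a), if_neg (f12 a).symm, neg_zero]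
    · rw [rot_y2, map_neg, nuV_y, nuV_y, if_pos rfl, if_pos rfl, neg_neg]

theorem rot_nu2 (a : Fin 3) : ⁅rot xd i a, nuV xd i (a + 2)⁆ = - nuV xd i (a + 1) :=
  rot_nu xd i a _ _ (fun z => by rw [rot_y2, Derivation.neg_apply, nuV_x]; ring) fun c => by
    rw [Derivation.neg_apply]
    rcases fin3 a c with rfl | rfl | rfl
    · rw [rot_y0, nuV_y, if_neg (f01 c)]; simp
    · rw [rot_y1, nuV_y, nuV_y, if_pos rfl, if_pos rfl]
    · rw [rot_y2, map_neg, nuV_y, nuV_y, if_neg (f12 a), if_neg (f12 a).symm, neg_zero, neg_zero]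

theorem y_rot : zy D i 0 • rot xd i 0 + zy D i 1 • rot xd i 1 + zy D i 2 • rot xd i 2 = 0 :=
  zder_ext (fun z => by simp [rot_x]) fun c => by
    simp only [Derivation.add_apply, Derivation.smul_apply, rot_y]
    fin_cases c <;> simp [Fin.sum_univ_three, eps] <;> ring

theorem f1_rot (a : Fin 3) : zf1 xd i • rot xd i a + zy D i (a + 1) • nuV xd i (a + 2) =
    zy D i (a + 2) • nuV xd i (a + 1) :=
  zder_ext (fun z => by
    simp only [Derivation.add_apply, Derivation.smul_apply, rot_x, nuV_x, smul_eq_mul]; ring)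
    fun c => by
      simp only [Derivation.add_apply, Derivation.smul_apply, nuV_y, smul_eq_mul]
      rcases fin3 a c with rfl | rfl | rfl
      · rw [rot_y0, if_neg (f01 c), if_neg (f02 c)]; ring
      · rw [rot_y1, if_neg (f12 a), if_pos rfl]; ring
      · rw [rot_y2, if_pos rfl, if_neg (f12 a).symm]; ring

theorem nu_nu (a : Fin 3) : ⁅nuV xd i (a + 1), nuV xd i (a + 2)⁆ + zf2 xd i • rot xd i a = 0 :=
  zder_ext (fun z => by
    rw [Derivation.add_apply, Derivation.smul_apply, Derivation.commutator_apply, rot_x,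
      nuV_x, nuV_x, Derivation.leibniz, Derivation.leibniz _ (2 * zy D i (a + 1)), der_two, der_two,
      nuV_y, nuV_y, if_neg (f12 a), if_neg (f12 a).symm, nuV_x, nuV_x, Derivation.zero_apply]
    simp only [smul_eq_mul]
    ring) fun c => by
      simp only [Derivation.add_apply, Derivation.smul_apply, Derivation.commutator_apply, nuV_y,
        smul_eq_mul, Derivation.zero_apply]
      rcases fin3 a c with rfl | rfl | rfl
      · rw [rot_y0, if_neg (f01 c), if_neg (f02 c)]; simp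
      · rw [rot_y1, if_neg (f12 a), if_pos rfl, nuV_f1, map_zero]; ring
      · rw [rot_y2, if_pos rfl, if_neg (f12 a).symm, nuV_f1, map_zero]; ring

theorem ex_bez : ∃ p : D.C i × D.C i,
    p.1 * D.f i + p.2 * (xd.pd i (D.f i) * xd.pd i (D.f i)) = 1 := by
  obtain ⟨a, b, h⟩ := (xd.cp i).mul_right (xd.cp i)
  exact ⟨(a, b), h⟩

/-- The first coefficient of `al f + be f'² = 1`. -/
def zal : D.C i := (ex_bez xd i).choose.1

/-- The second coefficient of `al f + be f'² = 1`. -/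
def zbe : D.C i := (ex_bez xd i).choose.2

theorem z_bez : zal xd i * D.f i + zbe xd i * (xd.pd i (D.f i) * xd.pd i (D.f i)) = 1 :=
  (ex_bez xd i).choose_spec

section Mod

variable {V W : Type} [AddCommGroup V] [Module ℂ V] [AddCommGroup W] [Module ℂ W]

/-- The operators on a `D`-module on the chart. -/
def opsZ (fn : OZ D i → Module.End ℂ V) (vf : Derivation ℂ (OZ D i) (OZ D i) → Module.End ℂ V) :
    Ops V :=
  ⟨fun a => fn (zy D i a), fun a => vf (nuV xd i a), fn (zf1 xd i), fn (zf2 xd i),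
    fn (zx D i (zal xd i)), fn (zx D i (zbe xd i))⟩

section

variable {A : Type} [CommRing A] [Algebra ℂ A] {fn : A → Module.End ℂ V}
  {vf : Derivation ℂ A A → Module.End ℂ V} (h : IsDMod (fun a => ⇑(fn a)) fun v => ⇑(vf v))
include h

theorem dm_fn0 (m : V) : fn 0 m = 0 := by
  have := h.const 0 m
  rwa [map_zero, zero_smul] at this

theorem dm_fn1 (m : V) : fn 1 m = m := by
  have := h.const 1 m
  rwa [map_one, one_smul] at this

theorem dm_neg (a : A) (m : V) : fn (-a) m = - fn a m :=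
  eq_neg_of_add_eq_zero_left ((h.fn_add _ _ m).symm.trans (by rw [neg_add_cancel, dm_fn0 h]))

theorem dm_vf0 (m : V) : vf 0 m = 0 := by
  have := h.vf_smul 0 0 m
  rwa [zero_smul, dm_fn0 h] at this

theorem dm_vneg (v : Derivation ℂ A A) (m : V) : vf (-v) m = - vf v m :=
  eq_neg_of_add_eq_zero_left ((h.vf_add _ _ m).symm.trans (by rw [neg_add_cancel, dm_vf0 h]))

theorem dm_comm (a b : A) (m : V) : fn a (fn b m) = fn b (fn a m) :=
  (h.fn_mul a b m).symm.trans ((congrArg (fn · m) (mul_comm a b)).trans (h.fn_mul b a m))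

theorem dm_csmul (c : ℂ) (v : Derivation ℂ A A) (m : V) : vf (c • v) m = c • vf v m := by
  rw [← algebraMap_smul A c v]
  exact (h.vf_smul _ v m).trans (h.const c _)

theorem dm_vf (v : Derivation ℂ A A) (a : A) (m : V) :
    vf v (fn a m) = fn a (vf v m) + fn (v a) m := (h.vf_fn v a m).trans (add_comm _ _)

theorem dm_lie (v w : Derivation ℂ A A) (m : V) :
    vf v (vf w m) = vf w (vf v m) + vf ⁅v, w⁆ m :=
  (eq_add_of_sub_eq' (h.vf_lie v w m).symm)

end

variable {fn : OZ D i → Module.End ℂ V} {vf : Derivation ℂ (OZ D i) (OZ D i) → Module.End ℂ V}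

/-- **The relations.** -/
theorem opsZ_rel (h : IsDMod (fun a => ⇑(fn a)) fun v => ⇑(vf v)) :
    (opsZ xd i fn vf).Rel fun a => vf (rot xd i a) := by
  refine ⟨⟨⟨fun a x => ?_, fun a x => ?_, fun a x => ?_⟩, fun a b x => dm_comm h _ _ x,
    fun x => ?_⟩, ⟨⟨fun a x => ?_, fun a x => ?_, fun a x => ?_⟩, fun a x => ?_,
    fun a b hab x => ?_, fun a x => ?_, fun a x => dm_comm h _ _ x, fun a x => dm_comm h _ _ x,
    fun a x => ?_, fun a x => ?_, fun a x => ?_⟩, fun x => ?_⟩ <;> simp only [opsZ]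
  · rw [dm_vf h, rot_y0, dm_fn0 h, add_zero]
  · rw [dm_vf h, rot_y1]
  · rw [dm_vf h, rot_y2, dm_neg h, sub_eq_add_neg]
  · have e := dm_vf0 h x
    rw [← y_rot xd i] at e
    exact (congrArg₂ (· + ·) (congrArg₂ (· + ·) (h.vf_smul _ _ x) (h.vf_smul _ _ x))
      (h.vf_smul _ _ x)).symm.trans
      ((congrArg (· + _) (h.vf_add _ _ x)).symm.trans ((h.vf_add _ _ x).symm.trans e))
  · rw [dm_lie h, rot_nu0, dm_vf0 h, add_zero]
  · rw [dm_lie h, rot_nu1]
  · rw [dm_lie h, rot_nu2, dm_vneg h, sub_eq_add_neg]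
  · rw [dm_vf h, nuV_y, if_pos rfl]
  · rw [dm_vf h, nuV_y, if_neg hab.symm, dm_fn0 h, add_zero]
  · rw [dm_vf h, rot_f1, dm_fn0 h, add_zero]
  · refine eq_sub_of_add_eq ?_
    exact (congrArg₂ (· + ·) (h.vf_smul _ _ x) (h.vf_smul _ _ x)).symm.trans
      ((h.vf_add _ _ x).symm.trans ((congrArg (vf · x) (f1_rot xd i a)).trans (h.vf_smul _ _ x)))
  · rw [dm_vf h, nuV_f1]
    exact congrArg _ (h.fn_mul _ _ x)
  · have e := dm_vf0 h x
    rw [← nu_nu xd i a] at e
    have e2 : vf ⁅nuV xd i (a + 1), nuV xd i (a + 2)⁆ x + fn (zf2 xd i) (vf (rot xd i a) x) = 0 :=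
      (congrArg (_ + ·) (h.vf_smul _ _ x)).symm.trans ((h.vf_add _ _ x).symm.trans e)
    rw [dm_lie h, eq_neg_of_add_eq_zero_left e2, sub_eq_add_neg]
  · have e1 : qq (fun a => fn (zy D i a)) x = fn (zx D i (D.f i)) x := by
      rw [← zy_sq, dotProduct, Fin.sum_univ_three]
      exact ((h.fn_add _ _ x).trans (congrArg₂ (· + ·) ((h.fn_add _ _ x).trans
        (congrArg₂ (· + ·) (h.fn_mul _ _ x) (h.fn_mul _ _ x))) (h.fn_mul _ _ x))).symm
    have e2 := congrArg (fun z => fn (zx D i z) x) (z_bez xd i)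
    simp only [map_add, map_mul, map_one, dm_fn1 h] at e2
    rw [e1]
    exact (congrArg₂ (· + ·) (h.fn_mul _ _ x) ((h.fn_mul _ _ x).trans
      (congrArg _ (h.fn_mul _ _ x)))).symm.trans ((h.fn_add _ _ x).symm.trans e2)

theorem opsZ_hom {fn' : OZ D i → Module.End ℂ W}
    {vf' : Derivation ℂ (OZ D i) (OZ D i) → Module.End ℂ W} {u : V →ₗ[ℂ] W}
    (h1 : ∀ a m, u (fn a m) = fn' a (u m)) (h2 : ∀ v m, u (vf v m) = vf' v (u m)) :
    (opsZ xd i fn vf).Hom (opsZ xd i fn' vf') u :=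
  ⟨fun _ => h1 _, fun _ => h2 _, h1 _, h1 _, h1 _, h1 _⟩

end Mod

/-! ### The action -/

variable {G : Grp} (K : GK G) (s : ℂ)

/-- The infinitesimal action of the Lie algebra. -/
def muV (a : Fin 3) : Derivation ℂ (OZ D i) (OZ D i) := K.κ • rot xd i a

theorem nm_muV {V : Type} [AddCommGroup V] [Module ℂ V] {fn : OZ D i → Module.End ℂ V}
    {vf : Derivation ℂ (OZ D i) (OZ D i) → Module.End ℂ V}
    (h : IsDMod (fun a => ⇑(fn a)) fun v => ⇑(vf v)) :
    nm K (fun a => vf (muV xd i K a)) = fun a => vf (rot xd i a) :=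
  funext fun a => LinearMap.ext fun m => by
    rw [nm_apply, muV, dm_csmul h, smul_smul, inv_mul_cancel₀ K.κ_ne, one_smul]

theorem opsZ_rel' {V : Type} [AddCommGroup V] [Module ℂ V] {fn : OZ D i → Module.End ℂ V}
    {vf : Derivation ℂ (OZ D i) (OZ D i) → Module.End ℂ V}
    (h : IsDMod (fun a => ⇑(fn a)) fun v => ⇑(vf v)) :
    (opsZ xd i fn vf).Rel (nm K fun a => vf (muV xd i K a)) :=
  nm_muV xd i K h ▸ opsZ_rel xd i h

/-- The action `(z, g) ↦ g⁻¹ z` on functions. -/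
def actZ : OZ D i →ₐ[ℂ] OZ D i ⊗[ℂ] K.O.R := QM.φ (inr K xd s (Zo xd i))

theorem actZ_x (z : D.C i) : actZ xd i K s (zx D i z) = zx D i z ⊗ₜ 1 :=
  (QM.hx (inr K xd s (Zo xd i)) z).trans (congrArg (fun z => zx D i z ⊗ₜ[ℂ] (1 : K.O.R))
    (D.κ_id i z))

/-- The coordinate of the group. -/
def gZ (D : CD I) (i : I) (K : GK G) : Matrix (Fin G.N) (Fin G.N) (OZ D i ⊗[ℂ] K.O.R) :=
  K.g.map (cR K (OZ D i))

theorem gZ_pt (D : CD I) (i : I) (K : GK G) : G.Pt (gZ D i K) := K.pt.map _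

theorem actZ_ht : gZ D i K * G.ht (actZ xd i K s ∘ zy D i) =
    G.ht (cL K (OZ D i) ∘ zy D i) * gZ D i K := by
  have h : gZ D i K * G.ht (actZ xd i K s ∘ zy D i) =
      cL K (OZ D i) (zx D i (D.c (𝟙 i))) • (G.ht (cL K (OZ D i) ∘ zy D i) * gZ D i K) :=
    QM.hY (inr K xd s (Zo xd i))
  rwa [D.c_id, map_one, map_one, one_smul] at h

section Conj

variable {B : Type} [CommRing B] [Algebra ℂ B] {g : Matrix (Fin G.N) (Fin G.N) B}
  {Y Y' : Fin 3 → B}

theorem der_ht (w : Derivation ℂ B B) (Y : Fin 3 → B) :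
    (G.ht Y).map w = G.ht (w ∘ Y) := Matrix.ext fun p q => by
  simp only [ht_eq, map_apply, Matrix.sum_apply, Matrix.smul_apply, map_sum, Derivation.leibniz,
    bt, Derivation.map_algebraMap, smul_eq_mul, Function.comp_apply, mul_zero, zero_add, mul_comm]

theorem ht_zero : G.ht (0 : Fin 3 → B) = 0 := by simp [ht_eq]

theorem pt_cancel (hg : G.Pt g) {u v : Matrix (Fin G.N) (Fin G.N) B} (h : g * u = g * v) :
    u = v := by
  rw [← Matrix.one_mul u, ← pt_adj_mul hg, Matrix.mul_assoc, h, ← Matrix.mul_assoc, pt_adj_mul hg,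
    Matrix.one_mul]

theorem der_conj (h : g * G.ht Y' = G.ht Y * g) (w : Derivation ℂ B B) :
    g * G.ht (w ∘ Y') = G.ht (w ∘ Y) * g + G.ht Y * g.map w - g.map w * G.ht Y' := by
  have e := congrArg (fun m => m.map w) h
  simp only [der_mul, der_ht] at e
  exact eq_sub_of_add_eq' e

include K

theorem ht_br (Y : Fin 3 → B) (a : Fin 3) :
    G.ht Y * bt G B a - bt G B a * G.ht Y = G.ht fun b => K.κ • ∑ c, eps a b c • Y c := by
  simp only [ht_eq, Matrix.sum_mul, Matrix.mul_sum, Matrix.smul_mul, Matrix.mul_smul,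
    ← Finset.sum_sub_distrib, ← smul_sub, K.br_bt, Finset.smul_sum, Finset.sum_smul]
  rw [Finset.sum_comm]
  refine Finset.sum_congr rfl fun b _ => Finset.sum_congr rfl fun c _ => ?_
  rw [smul_smul, smul_assoc, smul_comm, eps_cyc c a b]

theorem conj_L (hg : G.Pt g) (h : g * G.ht Y' = G.ht Y * g) (w : Derivation ℂ B B) (a : Fin 3)
    (h1 : g.map w = g * bt G B a) (h2 : w ∘ Y = 0) :
    w ∘ Y' = fun b => K.κ • ∑ c, eps a b c • Y' c :=
  K.ht_inj (pt_cancel hg (by
    rw [der_conj h, h1, h2, ht_zero, Matrix.zero_mul, zero_add, ← ht_br K, ← Matrix.mul_assoc, ← h,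
      Matrix.mul_sub, Matrix.mul_assoc, Matrix.mul_assoc]))

theorem conj_R (hg : G.Pt g) (h : g * G.ht Y' = G.ht Y * g) (w w' : Derivation ℂ B B) (a : Fin 3)
    (h1 : g.map w = 0) (h2 : w ∘ Y = fun b => K.κ • ∑ c, eps a b c • Y c)
    (h1' : g.map w' = bt G B a * g) (h2' : w' ∘ Y = 0) : w ∘ Y' = w' ∘ Y' :=
  K.ht_inj (pt_cancel hg (by
    rw [der_conj h, der_conj h, h1, h2, h1', h2', ht_zero, ← ht_br K, Matrix.zero_mul,
      Matrix.zero_mul, Matrix.mul_zero, zero_add, add_zero, sub_zero, Matrix.sub_mul,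
      Matrix.mul_assoc, Matrix.mul_assoc, Matrix.mul_assoc, h]))

end Conj

theorem map_muV {B : Type} [Semiring B] [Algebra ℂ B] (φ : OZ D i →ₐ[ℂ] B) (a b : Fin 3) :
    φ (muV xd i K a (zy D i b)) = K.κ • ∑ c, eps a b c • (φ ∘ zy D i) c := by
  simp only [muV, Derivation.smul_apply, rot_y, map_smul, map_sum, Function.comp_apply]

theorem muV_x (a : Fin 3) (z : D.C i) : muV xd i K a (zx D i z) = 0 := by
  rw [muV, Derivation.smul_apply, rot_x, smul_zero]

theorem lT_cL (w : Derivation ℂ K.O.R K.O.R) :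
    lT (OZ D i) w ∘ cL K (OZ D i) ∘ zy D i = 0 := funext fun a =>
  (lT_tmul w (zy D i a) 1).trans (by rw [Derivation.map_one_eq_zero, tmul_zero]; rfl)

/-- The left invariant vector fields and the action. -/
theorem lT_actZ (a : Fin 3) (x : OZ D i) :
    lT (OZ D i) (K.L a) (actZ xd i K s x) = actZ xd i K s (muV xd i K a x) := by
  have e : (gZ D i K).map (lT (OZ D i) (K.L a)) = gZ D i K * bt G _ a := by
    rw [gZ, GK.lT_g, K.L_g, map_mul', bt_map]
  have e2 := conj_L K (gZ_pt D i K) (actZ_ht xd i K s) _ a e (lT_cL i K _)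
  refine zder_ext' (actZ xd i K s) ((lT (OZ D i) (K.L a)).toLinearMap ∘ₗ (actZ xd i K s).toLinearMap)
    ((actZ xd i K s).toLinearMap ∘ₗ (muV xd i K a).toLinearMap) (fun x y => by simp)
    (fun x y => by simp) (fun z => ?_) (fun b => ?_) x <;>
    simp only [LinearMap.comp_apply, AlgHom.toLinearMap_apply, Derivation.coeFn_coe]
  · rw [actZ_x, muV_x, lT_tmul, Derivation.map_one_eq_zero, tmul_zero, map_zero]
  · exact (congrFun e2 b).trans (map_muV xd i K (actZ xd i K s) a b).symm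

/-- The right invariant vector fields and the action. -/
theorem rT_actZ (a : Fin 3) (x : OZ D i) :
    rT K.O.R (muV xd i K a) (actZ xd i K s x) = lT (OZ D i) (K.R a) (actZ xd i K s x) := by
  have e : (gZ D i K).map (lT (OZ D i) (K.R a)) = bt G _ a * gZ D i K := by
    rw [gZ, GK.lT_g, K.R_g, map_mul', bt_map]
  have e' : (gZ D i K).map (rT K.O.R (muV xd i K a)) = 0 := Matrix.ext fun p q =>
    (rT_tmul (muV xd i K a) 1 (K.g p q)).trans (by rw [Derivation.map_one_eq_zero, zero_tmul]; rfl)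
  have e2 := conj_R K (gZ_pt D i K) (actZ_ht xd i K s) _ _ a e'
    (funext fun b => map_muV xd i K (cL K (OZ D i)) a b) e (lT_cL i K _)
  refine zder_ext' (actZ xd i K s)
    ((rT K.O.R (muV xd i K a)).toLinearMap ∘ₗ (actZ xd i K s).toLinearMap)
    ((lT (OZ D i) (K.R a)).toLinearMap ∘ₗ (actZ xd i K s).toLinearMap) (fun x y => by simp)
    (fun x y => by simp) (fun z => ?_) (fun b => ?_) x <;>
    simp only [LinearMap.comp_apply, AlgHom.toLinearMap_apply, Derivation.coeFn_coe]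
  · rw [actZ_x, rT_tmul, muV_x, lT_tmul, Derivation.map_one_eq_zero, tmul_zero, zero_tmul]
  · exact congrFun e2 b

end

end Vale.Agent.P286EX
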