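import Vale.Agent.P286EX6.Hb

/-!
# Detection of cartesian families
-/

set_option linter.all false

namespace Vale.Agent.P286EX

open CategoryTheory Matrix TensorProduct Vale.Agent.P286 Vale.Agent.P286.St Vale.Agent.P286.H847
  Vale.Agent.P286E Vale.Agent.P286EG Vale.Agent.P286EC Kun

noncomputable section

theorem tr_vf' {T : TSite} (F : GTD T) {X Y : T.C} (u : X ⟶ Y) (ρ : T.R Y) (hu : ρ * T.dl u = 1)
    (w : (T.A Y).Der) (v : (T.A X).Der) (h : ∀ a, w (T.f u a) = T.f u (v a)) (x : (F.F X).V) :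
    (F.tr u).f (F.vf X v x) = F.vf Y w ((F.tr u).f x) +
      F.fn Y (algebraMap ℂ _ T.s * (ρ * w (T.dl u))) ((F.tr u).f x) := by
  have h1 := congrArg (F.fn Y ρ) ((F.trans X Y u).vf w 1 (fun _ => 1) (fun _ => v)
    (fun a => by rw [Fin.sum_univ_one, one_mul, h]) x)
  have h2 : ∀ y, F.fn Y 1 y = y := LinearMap.congr_fun (map_one (fnH F Y))
  have h3 : ∀ a b y, F.fn Y a (F.fn Y b y) = F.fn Y (a * b) y := fun a b y =>
    ((F.dmod Y).fn_mul a b y).symm
  simp only [map_sub, map_smul, h3, hu, h2, Fin.sum_univ_one, mul_one] at h1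
  rw [h1, ← h3 (algebraMap ℂ _ T.s), show F.fn Y (algebraMap ℂ _ T.s) _ = _ from
    (F.dmod Y).const _ _, sub_add_cancel]

variable {G : Grp} (K : GK G) {I : Type} [SmallCategory I] {D : CD I} (xd : XD D) (s : ℂ)
  {i j : I} (α : i ⟶ j)

/-- The homomorphism of the charts. -/
def zφ : OZ D i →ₐ[ℂ] OZ D j := QM.φ (Za K xd s α)

theorem zφ_x (z : D.C i) : zφ K xd s α (zx D i z) = zx D j (D.κ α z) := QM.hx (Za K xd s α) z

theorem zφ_y (a : Fin 3) : zφ K xd s α (zy D i a) = zx D j (D.c α) * zy D j a := by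
  refine (zlift_y _ _ (zar_sq K (Zo xd j) α (Grp.Pt.one G)) a).trans ?_
  rw [adjugate_one, K.adm_one, one_mulVec]
  rfl

theorem ci_c : Ring.inverse (D.c α) * D.c α = 1 := Ring.inverse_mul_cancel _ (D.c_unit α)

theorem κ_pd_f : D.κ α (xd.pd i (D.f i)) =
    2 * xd.pd j (D.c α) * D.f j + D.c α * xd.pd j (D.f j) := by
  have h := xd.pd_κ α (D.f i)
  rw [D.κ_f, sq, Derivation.leibniz, Derivation.leibniz] at h
  simp only [smul_eq_mul] at h
  linear_combination (-Ring.inverse (D.c α)) * h + (2 * xd.pd j (D.c α) * D.f j +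
    D.c α * xd.pd j (D.f j) - D.κ α (xd.pd i (D.f i))) * ci_c α

/-- The lift of the vector field `nuV`. -/
def wV (a : Fin 3) : Derivation ℂ (OZ D j) (OZ D j) :=
  nuV xd j a + (zx D j (2 * Ring.inverse (D.c α) * xd.pd j (D.c α)) * zy D j (a + 1)) •
    rot xd j (a + 2) + (-zx D j (2 * Ring.inverse (D.c α) * xd.pd j (D.c α)) * zy D j (a + 2)) •
    rot xd j (a + 1)

theorem wV_x (a : Fin 3) (z : D.C j) :
    wV xd α a (zx D j z) = 2 * zy D j a * zx D j (xd.pd j z) := by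
  simp only [wV, Derivation.add_apply, Derivation.smul_apply, rot_x, nuV_x, smul_zero, add_zero]

theorem y_rot_y (a b : Fin 3) : zy D j (a + 1) * rot xd j (a + 2) (zy D j b) -
    zy D j (a + 2) * rot xd j (a + 1) (zy D j b) =
    (if b = a then zx D j (D.f j) else 0) - zy D j a * zy D j b := by
  rw [rot_y, rot_y, ← zy_sq]
  fin_cases a <;> fin_cases b <;> simp [Fin.sum_univ_three, eps, dotProduct] <;> ring

theorem wV_φ (a : Fin 3) (x : OZ D i) :
    wV xd α a (zφ K xd s α x) = zφ K xd s α (nuV xd i a x) := by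
  refine zder_ext' (zφ K xd s α) ((wV xd α a).toLinearMap ∘ₗ (zφ K xd s α).toLinearMap)
    ((zφ K xd s α).toLinearMap ∘ₗ (nuV xd i a).toLinearMap) (fun x y => by simp)
    (fun x y => by simp) (fun z => ?_) (fun b => ?_) x <;>
    simp only [LinearMap.comp_apply, AlgHom.toLinearMap_apply, Derivation.coeFn_coe]
  · rw [zφ_x, wV_x, nuV_x, xd.pd_κ, map_mul, map_mul, map_mul, zφ_x, zφ_y, map_ofNat]
    ring
  · have h1 := y_rot_y xd a b (j := j)
    have h2 := congrArg (zx D j) (ci_c α)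
    rw [zφ_y, Derivation.leibniz, wV_x, nuV_y]
    simp only [wV, Derivation.add_apply, Derivation.smul_apply, nuV_y, smul_eq_mul, map_mul,
      map_one, map_ofNat] at h2 ⊢
    split_ifs at h1 ⊢
    · rw [zf1, zf1, zφ_x, κ_pd_f]
      simp only [map_add, map_mul, map_ofNat]
      linear_combination (2 * zx D j (xd.pd j (D.c α))) * h1 + (2 * zx D j (xd.pd j (D.c α)) *
        (zy D j (a + 1) * rot xd j (a + 2) (zy D j b) -
          zy D j (a + 2) * rot xd j (a + 1) (zy D j b))) * h2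
    · rw [map_zero]
      linear_combination (2 * zx D j (xd.pd j (D.c α))) * h1 + (2 * zx D j (xd.pd j (D.c α)) *
        (zy D j (a + 1) * rot xd j (a + 2) (zy D j b) -
          zy D j (a + 2) * rot xd j (a + 1) (zy D j b))) * h2

section Mod

variable {V : Type} [AddCommGroup V] [Module ℂ V]

theorem opsZ_lin [Module (D.C i) V] {fn : OZ D i → Module.End ℂ V}
    {vf : Derivation ℂ (OZ D i) (OZ D i) → Module.End ℂ V}
    (h : IsDMod (fun a => ⇑(fn a)) fun v => ⇑(vf v)) (hs : ∀ (z : D.C i) m, z • m = fn (zx D i z) m) :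
    (opsZ xd i fn vf).Lin (D.C i) ((2 : D.C i) • xd.pd i) := by
  have h1 : ∀ b, Bc.Li (D.C i) (fn b) := fun b z m => by rw [hs, hs, dm_comm h]
  refine ⟨fun a => h1 _, fun a z m => ?_, h1 _, h1 _, h1 _, h1 _⟩
  simp only [opsZ, hs]
  rw [dm_vf h, nuV_x]
  refine congrArg _ ((congrArg (fn · m) ?_).trans (h.fn_mul _ _ m))
  rw [Derivation.smul_apply, smul_eq_mul, map_mul, map_ofNat]
  ring

/-- The operators of the chart `i` on a module on the chart `j`. -/
def opsW (l : Fin 3 → OZ D j) (fn : OZ D j → Module.End ℂ V)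
    (vf : Derivation ℂ (OZ D j) (OZ D j) → Module.End ℂ V) : Ops V :=
  ⟨fun a => fn (zφ K xd s α (zy D i a)), fun a => vf (wV xd α a) + fn (l a),
    fn (zφ K xd s α (zf1 xd i)), fn (zφ K xd s α (zf2 xd i)),
    fn (zφ K xd s α (zx D i (zal xd i))), fn (zφ K xd s α (zx D i (zbe xd i)))⟩

variable [Module (D.C j) V] {fn : OZ D j → Module.End ℂ V}
  {vf : Derivation ℂ (OZ D j) (OZ D j) → Module.End ℂ V}
  (h : IsDMod (fun a => ⇑(fn a)) fun v => ⇑(vf v)) (hs : ∀ (z : D.C j) m, z • m = fn (zx D j z) m)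
  (l : Fin 3 → OZ D j)
include h hs

theorem opsW_lin : (opsW K xd s α l fn vf).Lin (D.C j) ((2 * Ring.inverse (D.c α)) • xd.pd j) := by
  have h1 : ∀ b, Bc.Li (D.C j) (fn b) := fun b z m => by rw [hs, hs, dm_comm h]
  refine ⟨fun a => h1 _, fun a z m => ?_, h1 _, h1 _, h1 _, h1 _⟩
  simp only [opsW, hs, LinearMap.add_apply, map_add]
  rw [dm_vf h, wV_x, dm_comm h (l a), add_right_comm]
  refine congrArg _ ((congrArg (fn · m) ?_).trans (h.fn_mul _ _ m))
  have h2 := congrArg (zx D j) (ci_c α)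
  rw [map_mul, map_one] at h2
  rw [Derivation.smul_apply, smul_eq_mul, map_mul, map_mul, map_ofNat, zφ_y]
  linear_combination (-2 * zy D j a * zx D j (xd.pd j z)) * h2

theorem opsW_stab (S : Submodule (D.C j) V) (h1 : (opsW K xd s α l fn vf).Stab S)
    (h2 : ∀ a, ∀ n ∈ S, vf (muV xd j K a) n ∈ S) : (opsZ xd j fn vf).Stab S := by
  have a1 : ∀ z, ∀ n ∈ S, fn (zx D j z) n ∈ S := fun z n hn => hs z n ▸ S.smul_mem z hn
  have a2 : ∀ b, ∀ n ∈ S, fn b n ∈ S := fun b => by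
    induction b using z_ind with
    | h1 z => exact a1 z
    | h2 x y hx hy => exact fun n hn => (h.fn_add x y n).symm ▸ S.add_mem (hx n hn) (hy n hn)
    | h3 x a hx =>
      refine fun n hn => (h.fn_mul x _ n).symm ▸ hx _ ?_
      have e : zy D j a = zx D j (Ring.inverse (D.c α)) * zφ K xd s α (zy D i a) := by
        rw [zφ_y, ← mul_assoc, ← map_mul, ci_c, map_one, one_mul]
      rw [e]
      exact (h.fn_mul _ _ n).symm ▸ a1 _ _ (h1.y a n hn)
  have a3 : ∀ a, ∀ n ∈ S, vf (rot xd j a) n ∈ S := fun a n hn => by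
    have e : vf (rot xd j a) n = fn (algebraMap ℂ _ K.κ⁻¹) (vf (muV xd j K a) n) := by
      refine Eq.trans ?_ (h.const _ _).symm
      rw [muV, dm_csmul h, smul_smul, inv_mul_cancel₀ K.κ_ne, one_smul]
    exact e ▸ a2 _ _ (h2 a n hn)
  refine ⟨fun a => a2 _, fun a n hn => ?_, a2 _, a2 _, a2 _, a2 _⟩
  have e := (h.vf_add _ _ n).trans (congrArg₂ (· + ·) ((h.vf_add (nuV xd j a) _ n).trans
    (congrArg _ (h.vf_smul (zx D j (2 * Ring.inverse (D.c α) * xd.pd j (D.c α)) * zy D j (a + 1))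
      (rot xd j (a + 2)) n))) (h.vf_smul (-zx D j (2 * Ring.inverse (D.c α) * xd.pd j (D.c α)) *
        zy D j (a + 2)) (rot xd j (a + 1)) n))
  have e1 : vf (wV xd α a) n ∈ S := (S.add_mem_iff_left (a2 (l a) n hn)).1 (h1.nu a n hn)
  exact (S.add_mem_iff_left (a2 _ _ (a3 _ n hn))).1
    ((S.add_mem_iff_left (a2 _ _ (a3 _ n hn))).1 (e ▸ e1))

end Mod

theorem z_po : ((D.κ α : D.C i →+* D.C j).Flat → (zφ K xd s α : OZ D i →+* OZ D j).Flat) ∧
    ∀ (P Q : Type) [AddCommGroup P] [Module (OZ D i) P] [Module (D.C i) P] [AddCommGroup Q]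
      [Module (OZ D j) Q] [Module (D.C j) Q], (∀ (z : D.C i) (p : P), z • p = zx D i z • p) →
      (∀ (z : D.C j) (p : Q), z • p = zx D j z • p) →
      ∀ (t : P →+ Q) (h : ∀ (a : OZ D i) p, t (a • p) = (zφ K xd s α : OZ D i →+* OZ D j) a • t p)
        (h' : ∀ (a : D.C i) p, t (a • p) = (D.κ α : D.C i →+* D.C j) a • t p),
      Function.Bijective (ExtS.lift (D.κ α : D.C i →+* D.C j) t h') ↔
        Function.Bijective (ExtS.lift (zφ K xd s α : OZ D i →+* OZ D j) t h) :=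
  po_of (D.κ α) (zx D i) (zx D j) (zφ K xd s α) (zy D i) (zy D j) (D.f i) (D.f j) (D.c α) _
    (ci_c α) (D.κ_f α) (zy_sq i) (zφ_x K xd s α) (zφ_y K xd s α)
    (fun _ _ _ u Z h => ⟨zlift u Z h, zlift_x u Z h, zlift_y u Z h⟩) (fun _ _ _ _ _ => z_ext)
    fun _ _ => z_ext

/-- **Detection of cartesian families.** -/
theorem cartf : CARTF := by
  intro I _ D G s K xd U hU F h i j α N N' ρ e e' he he' hl hl' hρ hc
  rw [db_iff_bij (xd.flat α) hρ]
  refine Iff.trans (forall_congr' fun q => ?_) (db_iff_bij ((z_po K xd s α).1 (xd.flat α))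
    (sl_tr F (Za K xd s α))).symm
  let _ : Module (D.C i) (Hn (F.F (Zo xd i)) q) :=
    Hn.mod ((ag F (Zo xd i)).res (zx D i : D.C i →+* OZ D i)) q
  let _ : Module (D.C j) (Hn (F.F (Zo xd j)) q) :=
    Hn.mod ((ag F (Zo xd j)).res (zx D j : D.C j →+* OZ D j)) q
  have : IsScalarTower ℂ (D.C i) (Hn (F.F (Zo xd i)) q) := Hn.tow
    (M := (ag F (Zo xd i)).res (zx D i : D.C i →+* OZ D i)) (fun c x => (congrArg (F.fn (Zo xd i) · x)
      ((zx D i).commutes c)).trans ((F.dmod _).const c x)) q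
  have : IsScalarTower ℂ (D.C j) (Hn (F.F (Zo xd j)) q) := Hn.tow
    (M := (ag F (Zo xd j)).res (zx D j : D.C j →+* OZ D j)) (fun c x => (congrArg (F.fn (Zo xd j) · x)
      ((zx D j).commutes c)).trans ((F.dmod _).const c x)) q
  let _ : Module (OZ D i) (Hn (F.F (Zo xd i)) q) := Hn.mod (ag F (Zo xd i)) q
  let _ : Module (OZ D j) (Hn (F.F (Zo xd j)) q) := Hn.mod (ag F (Zo xd j)) q
  have h1 : ∀ (a : OZ D i) m, Hn.map (F.tr (Za K xd s α)) q (Hn.map (fnG (ag F (Zo xd i)) a) q m) =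
      Hn.map (fnG (ag F (Zo xd j)) (zφ K xd s α a)) q (Hn.map (F.tr (Za K xd s α)) q m) :=
    hT_sl (sl_tr F (Za K xd s α)) q
  have h2 : ∀ (a : D.C i) m, (Hn.map (F.tr (Za K xd s α)) q).toAddMonoidHom (a • m) =
      (D.κ α : D.C i →+* D.C j) a • (Hn.map (F.tr (Za K xd s α)) q).toAddMonoidHom m :=
    fun a m => (h1 _ m).trans (congrArg (fun b => Hn.map (fnG (ag F (Zo xd j)) b) q _)
      (zφ_x K xd s α a))
  have h3 : zx D j (Ring.inverse (D.r α)) * zx D j (D.r α) = 1 := by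
    rw [← map_mul, Ring.inverse_mul_cancel _ (D.r_unit α), map_one]
  refine (EM.core hU (D.κ α) (hem K xd h i q) (hem K xd h j q)
    (fun z => FA.rho_zx K xd (gfa_cs F) h i z q) (fun z => FA.rho_zx K xd (gfa_cs F) h j z q)
    (Hn.map (F.tr (Za K xd s α)) q) h2 (FA.rho_Za K xd (gfa_cs F) h α q)
    (opsZ_lin xd (Hn.dmod F (Zo xd i) q) fun _ _ => rfl) _
    (opsW_lin K xd s α (Hn.dmod F (Zo xd j) q) (fun _ _ => rfl) fun a =>
      algebraMap ℂ _ s * (zx D j (Ring.inverse (D.r α)) * wV xd α a (zx D j (D.r α))))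
    (fun z => ?_) ⟨fun a => h1 _, fun a m => ?_, h1 _, h1 _, h1 _, h1 _⟩
    (opsW_stab K xd s α (Hn.dmod F (Zo xd j) q) (fun _ _ => rfl) _)
    (hT N N' ρ q) (hT_sl hρ q)
    (he.map (gfa_cs F) h (cmH (isMu K xd s i) h q) rfl).toAddMonoidHom
    (he'.map (gfa_cs F) h (cmH (isMu K xd s j) h q) rfl).toAddMonoidHom
    (he.bij (gfa_cs F) h _ rfl) (he'.bij (gfa_cs F) h _ rfl)
    (fun a x k => Hn.map_sq (u := fnG N a) (hl k a) x)
    (fun a x k => Hn.map_sq (u := fnG N' a) (hl' k a) x)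
    fun x k => Hn.map_sq (hc k) x).trans ((z_po K xd s α).2 _ _ (fun _ _ => rfl) (fun _ _ => rfl)
      _ h1 h2)
  · rw [Derivation.smul_apply, Derivation.smul_apply, xd.pd_κ, smul_eq_mul, smul_eq_mul, map_mul,
      map_ofNat, mul_assoc, ← mul_assoc _ (D.c α), ci_c, one_mul]
  · obtain ⟨x, rfl⟩ := Hn.pr_surj m
    exact (congrArg (Hn.pr _ q) (Subtype.ext (tr_vf' F (Za K xd s α) _ h3 (wV xd α a) (nuV xd i a)
      (wV_φ K xd s α a) x.1))).trans (map_add (Hn.pr _ q) _ _)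

end

end Vale.Agent.P286EX
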