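import Vale.Agent.P286EX.Defs
import Vale.Agent.P286ES.Gen

/-!
# Rational representations, their multiplicity spaces and the Reynolds operator
-/

set_option linter.all false

namespace Vale.Agent.P286EX

open Matrix TensorProduct Vale.Agent.P286 Vale.Agent.P286E Vale.Agent.P286ES

noncomputable section

variable {G : Grp} {K : GK G} {M N : Type} [AddCommGroup M] [Module ℂ M] [AddCommGroup N]
  [Module ℂ N]

/-- The value at the unit element. -/
def GK.e1 (K : GK G) : K.O.R →ₐ[ℂ] ℂ := K.ev (1 : Matrix _ _ ℂ) (Grp.Pt.one G)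

/-- A linear form on `O`, applied to the first factor of `O ⊗ M`. -/
def ctr {O : Type} [AddCommGroup O] [Module ℂ O] (l : O →ₗ[ℂ] ℂ) (M : Type) [AddCommGroup M]
    [Module ℂ M] : O ⊗[ℂ] M →ₗ[ℂ] M :=
  (TensorProduct.lid ℂ M).toLinearMap ∘ₗ l.rTensor M

theorem ctr_tmul {O : Type} [AddCommGroup O] [Module ℂ O] (l : O →ₗ[ℂ] ℂ) (f : O) (m : M) :
    ctr l M (f ⊗ₜ m) = l f • m := rfl

theorem ctr_lTensor {O : Type} [AddCommGroup O] [Module ℂ O] (l : O →ₗ[ℂ] ℂ) (u : M →ₗ[ℂ] N)
    (x : O ⊗[ℂ] M) : ctr l N (u.lTensor O x) = u (ctr l M x) := by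
  induction x using TensorProduct.induction_on with
  | zero => simp
  | tmul f m => rw [LinearMap.lTensor_tmul, ctr_tmul, ctr_tmul, map_smul]
  | add x y hx hy => simp only [map_add, hx, hy]

/-- A vector field acting on the first factor. -/
abbrev dT {O : Type} [CommRing O] [Algebra ℂ O] (w : Derivation ℂ O O) (M : Type) [AddCommGroup M]
    [Module ℂ M] : O ⊗[ℂ] M →ₗ[ℂ] O ⊗[ℂ] M := w.toLinearMap.rTensor M

namespace Em

theorem dT_smul {O : Type} [CommRing O] [Algebra ℂ O] (w : Derivation ℂ O O) (f : O)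
    (x : O ⊗[ℂ] M) : dT w M (f • x) = w f • x + f • dT w M x := by
  induction x using TensorProduct.induction_on with
  | zero => simp
  | tmul g m =>
    simp only [smul_tmul', LinearMap.rTensor_tmul, smul_eq_mul, Derivation.coeFn_coe,
      Derivation.leibniz, ← add_tmul]
    congr 1
    ring
  | add x y hx hy => simp only [smul_add, map_add, hx, hy]; abel

theorem lT_smul {O : Type} [CommRing O] [Algebra ℂ O] (u : M →ₗ[ℂ] N) (f : O) (x : O ⊗[ℂ] M) :
    u.lTensor O (f • x) = f • u.lTensor O x := by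
  induction x using TensorProduct.induction_on with
  | zero => simp
  | tmul g m => simp only [smul_tmul', LinearMap.lTensor_tmul]
  | add x y hx hy => simp only [smul_add, map_add, hx, hy]

theorem ctr_smul {O : Type} [CommRing O] [Algebra ℂ O] (e : O →ₐ[ℂ] ℂ) (f : O) (x : O ⊗[ℂ] M) :
    ctr e.toLinearMap M (f • x) = e f • ctr e.toLinearMap M x := by
  induction x using TensorProduct.induction_on with
  | zero => simp
  | tmul g m => simp only [smul_tmul', ctr_tmul, smul_eq_mul, AlgHom.toLinearMap_apply, map_mul,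
      mul_smul]
  | add x y hx hy => simp only [smul_add, map_add, hx, hy]

theorem nsm {O : Type} [CommRing O] [Algebra ℂ O] (f : O) (x : O ⊗[ℂ] M) :
    (-f) • x = -(f • x) := neg_smul f x

theorem lT_dT {O : Type} [CommRing O] [Algebra ℂ O] (w : Derivation ℂ O O) (u : M →ₗ[ℂ] N)
    (x : O ⊗[ℂ] M) : u.lTensor O (dT w M x) = dT w N (u.lTensor O x) := by
  induction x using TensorProduct.induction_on with
  | zero => simp
  | tmul g m => simp only [LinearMap.lTensor_tmul, LinearMap.rTensor_tmul]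
  | add x y hx hy => simp only [map_add, hx, hy]

/-- The first order deformation of the identity defined by a derivation. -/
def dfm {O B : Type} [CommRing O] [Algebra ℂ O] [CommRing B] [Algebra ℂ B] (w : Derivation ℂ O O)
    (ε : B) (hε : ε * ε = 0) : O →ₐ[ℂ] B ⊗[ℂ] O where
  toFun f := 1 ⊗ₜ f + ε ⊗ₜ w f
  map_one' := by rw [Derivation.map_one_eq_zero, tmul_zero, add_zero]; rfl
  map_mul' f g := by
    simp only [add_mul, mul_add, Algebra.TensorProduct.tmul_mul_tmul, hε, zero_tmul, one_mul,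
      mul_one, Derivation.leibniz, smul_eq_mul, tmul_add, add_zero, mul_comm g (w f)]
    abel
  map_zero' := by simp
  map_add' f g := by simp only [map_add, tmul_add]; abel
  commutes' c := by
    rw [Derivation.map_algebraMap, tmul_zero, add_zero, Algebra.TensorProduct.algebraMap_apply,
      Algebra.algebraMap_eq_smul_one, Algebra.algebraMap_eq_smul_one, tmul_smul, smul_tmul']

theorem haar_R' (K : GK G) (a : Fin 3) (f : K.O.R) {B : Type} [CommRing B] [Algebra ℂ B] (ε : B)
    (hε : ε * ε = 0) : K.haar (K.R a f) • ε = 0 := by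
  have h := K.haar_l (1 + ε • (G.β a).map (algebraMap ℂ _)) (dfm (K.R a) ε hε)
    (Matrix.ext fun p q => by
    have h1 := congrFun (congrFun (K.R_g a) p) q
    rw [map_apply, bt, Matrix.mul_apply] at h1
    change 1 ⊗ₜ K.g p q + ε ⊗ₜ K.R a (K.g p q) = _
    rw [h1, Matrix.mul_apply, tmul_sum]
    simp only [map_apply, Matrix.add_apply, Matrix.smul_apply, map_add, add_mul,
      Finset.sum_add_distrib, Algebra.TensorProduct.includeLeft_apply,
      Algebra.TensorProduct.includeRight_apply, Algebra.TensorProduct.tmul_mul_tmul, mul_one,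
      one_mul]
    congr 1
    · rw [Finset.sum_eq_single p, Matrix.one_apply_eq]
      · intro r _ hr
        rw [Matrix.one_apply_ne hr.symm, zero_tmul]
      · simp
    · refine Finset.sum_congr rfl fun r _ => ?_
      rw [← Algebra.smul_def, smul_eq_mul, mul_comm ε, ← Algebra.smul_def, smul_tmul]) f
  change TensorProduct.rid ℂ _ (K.haar.lTensor _ (1 ⊗ₜ f + ε ⊗ₜ K.R a f)) = _ at h
  rw [map_add, map_add, LinearMap.lTensor_tmul, LinearMap.lTensor_tmul, TensorProduct.rid_tmul,
    TensorProduct.rid_tmul, Algebra.algebraMap_eq_smul_one] at h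
  exact add_eq_left.1 h

theorem haar_R (K : GK G) (a : Fin 3) (f : K.O.R) : K.haar (K.R a f) = 0 := by
  have h := congrArg TrivSqZeroExt.snd
    (haar_R' K a f (DualNumber.eps : DualNumber ℂ) DualNumber.eps_mul_eps)
  simpa using h

theorem ctr_haar_R (K : GK G) (a : Fin 3) (x : K.O.R ⊗[ℂ] M) :
    ctr K.haar M (dT (K.R a) M x) = 0 := by
  induction x using TensorProduct.induction_on with
  | zero => simp
  | tmul g m => rw [LinearMap.rTensor_tmul, ctr_tmul, Derivation.coeFn_coe, haar_R, zero_smul]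
  | add x y hx hy => simp only [map_add, hx, hy, add_zero]

theorem const (K : GK G) (x : K.O.R ⊗[ℂ] M) (h : ∀ a, dT (K.L a) M x = 0) :
    x = 1 ⊗ₜ ctr K.e1.toLinearMap M x := by
  classical
  let b := Module.Basis.ofVectorSpace ℂ M
  let e := TensorProduct.equivFinsuppOfBasisRight (M := K.O.R) b
  have h1 : ∀ (u : K.O.R →ₗ[ℂ] K.O.R) (x : K.O.R ⊗[ℂ] M) i, e (u.rTensor M x) i = u (e x i) := by
    intro u x i
    induction x using TensorProduct.induction_on with
    | zero => simp
    | tmul g m =>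
      rw [LinearMap.rTensor_tmul, equivFinsuppOfBasisRight_apply_tmul_apply,
        equivFinsuppOfBasisRight_apply_tmul_apply, map_smul]
    | add x y hx hy => simp only [map_add, Finsupp.add_apply, hx, hy]
  have h2 : ∀ x : K.O.R ⊗[ℂ] M, (1 : K.O.R) ⊗ₜ[ℂ] ctr K.e1.toLinearMap M x =
      (Algebra.linearMap ℂ K.O.R ∘ₗ K.e1.toLinearMap).rTensor M x := by
    intro x
    induction x using TensorProduct.induction_on with
    | zero => simp
    | tmul g m =>
      rw [ctr_tmul, LinearMap.rTensor_tmul, tmul_smul, smul_tmul', LinearMap.comp_apply,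
        Algebra.linearMap_apply, Algebra.algebraMap_eq_smul_one]
    | add x y hx hy => simp only [map_add, tmul_add, hx, hy]
  refine e.injective (Finsupp.ext fun i => ?_)
  rw [h2, h1]
  obtain ⟨c, hc⟩ := K.const (e x i) fun a => by
    have := h1 (K.L a).toLinearMap x i
    rw [h a, map_zero] at this
    exact this.symm
  rw [hc]
  simp

theorem lf_tensor (K : GK G) (x : K.O.R ⊗[ℂ] M) : ∃ X : Submodule ℂ (K.O.R ⊗[ℂ] M),
    FiniteDimensional ℂ X ∧ x ∈ X ∧ ∀ a, ∀ z ∈ X, dT (K.L a) M z ∈ X := by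
  induction x using TensorProduct.induction_on with
  | zero => exact ⟨⊥, inferInstance, zero_mem _, fun a z hz => by
      rw [(Submodule.mem_bot ℂ).1 hz, map_zero]; exact zero_mem _⟩
  | tmul f m =>
    obtain ⟨W, hf, hW, hs⟩ := K.lf f
    refine ⟨W.map ((TensorProduct.mk ℂ K.O.R M).flip m), inferInstance, ⟨f, hf, rfl⟩, ?_⟩
    rintro a _ ⟨g, hg, rfl⟩
    exact ⟨_, hs a g hg, rfl⟩
  | add x y hx hy =>
    obtain ⟨X, h1, h2, h3⟩ := hx
    obtain ⟨Y, h1', h2', h3'⟩ := hy
    refine ⟨X ⊔ Y, inferInstance, Submodule.add_mem_sup h2 h2', fun a z hz => ?_⟩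
    obtain ⟨u, hu, v, hv, rfl⟩ := Submodule.mem_sup.1 hz
    rw [map_add]
    exact Submodule.add_mem_sup (h3 a u hu) (h3' a v hv)

theorem fd_comap {P : Type} [AddCommGroup P] [Module ℂ P] (ρ : M →ₗ[ℂ] P)
    (hρ : Function.Injective ρ) (X : Submodule ℂ P) (h : FiniteDimensional ℂ X) :
    FiniteDimensional ℂ (X.comap ρ) := by
  refine FiniteDimensional.of_injective
    ((ρ.domRestrict (X.comap ρ)).codRestrict X fun x => x.2) fun x y hxy => ?_
  have h5 : ρ x = ρ y := congrArg Subtype.val hxy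
  exact Subtype.ext (hρ h5)

theorem lf_of (K : GK G) (μ : Fin 3 → Module.End ℂ M) (ρ : M →ₗ[ℂ] K.O.R ⊗[ℂ] N)
    (hρ : Function.Injective ρ) (h : ∀ a m, ρ (μ a m) = dT (K.L a) N (ρ m)) (c : ℂ) :
    LF (c • μ) := fun m => by
  obtain ⟨X, h1, h2, h3⟩ := lf_tensor K (ρ m)
  refine ⟨X.comap ρ, ?_, h2, fun a x hx => Submodule.smul_mem _ c ?_⟩
  · exact fd_comap ρ hρ X h1
  · change ρ (μ a x) ∈ X
    rw [h]
    exact h3 a _ hx

end Em

/-- The inverse matrix of a representation. -/
def Rep.ri (U : Rep K) : Matrix (Fin U.n) (Fin U.n) K.O.R :=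
  U.r.map (K.ev K.g.adjugate (K.adj K.pt))

theorem Em.ev_self (K : GK G) : K.ev K.g K.pt = AlgHom.id ℂ K.O.R :=
  K.ext _ _ (K.ev_g _ _)

theorem Rep.r_mul_ri (U : Rep K) : U.r * U.ri = 1 := by
  have h := U.r_mul K.pt (K.adj K.pt)
  have h1 : K.ev (K.g * K.g.adjugate) (K.pt.mul (K.adj K.pt)) = (Algebra.ofId ℂ K.O.R).comp K.e1 :=
    K.ext _ _ (by
      rw [K.ev_g, mul_adjugate, K.pt.det, one_smul]
      have h2 := congrArg (fun m => m.map (Algebra.ofId ℂ K.O.R)) (K.ev_g _ (Grp.Pt.one G))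
      simp only [Matrix.map_map] at h2
      exact (h2.trans (Matrix.map_one _ (map_zero _) (map_one _))).symm)
  rw [h1, Em.ev_self] at h
  have h2 := congrArg (fun m => m.map (Algebra.ofId ℂ K.O.R)) U.r_one
  simp only [Matrix.map_map] at h2
  exact h.symm.trans (h2.trans (Matrix.map_one _ (map_zero _) (map_one _)))

theorem Rep.ri_mul_r (U : Rep K) : U.ri * U.r = 1 := mul_eq_one_comm.1 U.r_mul_ri

theorem Rep.e1_ri (U : Rep K) : U.ri.map K.e1 = 1 := by
  have h := congrArg (fun m => m.map K.e1) U.r_mul_ri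
  simp only [map_mul'] at h
  rw [show U.r.map K.e1 = 1 from U.r_one, Matrix.one_mul] at h
  exact h.trans (Matrix.map_one _ (map_zero _) (map_one _))

theorem Em.der_mul {O : Type} [CommRing O] [Algebra ℂ O] (w : Derivation ℂ O O) {n : ℕ}
    (u v : Matrix (Fin n) (Fin n) O) : (u * v).map w = u.map w * v + u * v.map w := by
  refine Matrix.ext fun p q => ?_
  simp only [map_apply, Matrix.mul_apply, Matrix.add_apply, map_sum, Derivation.leibniz,
    smul_eq_mul, ← Finset.sum_add_distrib]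
  exact Finset.sum_congr rfl fun r _ => by ring

theorem Em.der_one {O : Type} [CommRing O] [Algebra ℂ O] (w : Derivation ℂ O O) {n : ℕ} :
    (1 : Matrix (Fin n) (Fin n) O).map w = 0 := by
  refine Matrix.ext fun p q => ?_
  rw [map_apply, Matrix.one_apply]
  split_ifs <;> simp

theorem Rep.L_ri (U : Rep K) (a : Fin 3) :
    U.ri.map (K.L a) = -((U.dr a).map (algebraMap ℂ K.O.R) * U.ri) := by
  have h := Em.der_mul (K.L a) U.r U.ri
  rw [U.r_mul_ri, Em.der_one, U.L_r, Matrix.mul_assoc, ← Matrix.mul_add] at h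
  have h2 := congrArg (U.ri * ·) h
  simp only [← Matrix.mul_assoc, U.ri_mul_r, Matrix.one_mul, Matrix.mul_zero] at h2
  exact eq_neg_of_add_eq_zero_right h2.symm

theorem Rep.R_ri (U : Rep K) (a : Fin 3) :
    U.ri.map (K.R a) = -(U.ri * (U.dr a).map (algebraMap ℂ K.O.R)) := by
  have h := Em.der_mul (K.R a) U.ri U.r
  rw [U.ri_mul_r, Em.der_one, U.R_r, ← Matrix.mul_assoc, ← Matrix.add_mul] at h
  have h2 := congrArg (· * U.ri) h
  simp only [Matrix.mul_assoc, U.r_mul_ri, Matrix.mul_one, Matrix.zero_mul] at h2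
  exact eq_neg_of_add_eq_zero_left h2.symm

/-- A rational representation: `rho m` is the function `g ↦ g m`, and `mu` is the action of the
Lie algebra. -/
structure CM (K : GK G) (M : Type) [AddCommGroup M] [Module ℂ M] where
  mu : Fin 3 → Module.End ℂ M
  rho : M →ₗ[ℂ] K.O.R ⊗[ℂ] M
  one : ∀ m, ctr K.e1.toLinearMap M (rho m) = m
  L : ∀ a m, rho (mu a m) = dT (K.L a) M (rho m)
  R : ∀ a m, (mu a).lTensor K.O.R (rho m) = dT (K.R a) M (rho m)

namespace CM

variable (E : CM K M) (E' : CM K N) (U : Rep K)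

theorem rho_inj : Function.Injective E.rho := fun x y h => by rw [← E.one x, h, E.one]

/-- The equivariant maps from `U`. -/
def Inv : Submodule ℂ (Fin U.n → M) where
  carrier := {η | ∀ k, E.rho (η k) = ∑ l, U.r l k ⊗ₜ η l}
  add_mem' {η ζ} h h' k := by
    simp only [Pi.add_apply, map_add, h k, h' k, tmul_add, Finset.sum_add_distrib]
  zero_mem' k := by simp
  smul_mem' c η h k := by
    simp only [Pi.smul_apply, map_smul, h k, tmul_smul, Finset.smul_sum]

theorem mem_Inv {η : Fin U.n → M} : η ∈ E.Inv U ↔ ∀ k, E.rho (η k) = ∑ l, U.r l k ⊗ₜ η l := Iff.rfl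

/-- The averaged family `g ↦ g ∘ η ∘ g⁻¹`. -/
def tw (η : Fin U.n → M) (j : Fin U.n) : K.O.R ⊗[ℂ] M := ∑ k, U.ri k j • E.rho (η k)

theorem tw_of_mem {η : Fin U.n → M} (h : η ∈ E.Inv U) (j : Fin U.n) : E.tw U η j = 1 ⊗ₜ η j := by
  simp only [tw, h _, Finset.smul_sum, smul_tmul', smul_eq_mul]
  rw [Finset.sum_comm]
  simp only [← sum_tmul, mul_comm (U.ri _ j), ← Matrix.mul_apply, U.r_mul_ri]
  rw [Finset.sum_eq_single j, Matrix.one_apply_eq]
  · intro l _ hl
    rw [Matrix.one_apply_ne hl, zero_tmul]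
  · simp

theorem sum_tw (η : Fin U.n → M) (k : Fin U.n) : ∑ j, U.r j k • E.tw U η j = E.rho (η k) := by
  simp only [tw, Finset.smul_sum, smul_smul]
  rw [Finset.sum_comm]
  simp only [← Finset.sum_smul, mul_comm (U.r _ k), ← Matrix.mul_apply, U.ri_mul_r]
  rw [Finset.sum_eq_single k, Matrix.one_apply_eq, one_smul]
  · intro l _ hl
    rw [Matrix.one_apply_ne hl, zero_smul]
  · simp

theorem e1_tw (η : Fin U.n → M) (j : Fin U.n) : ctr K.e1.toLinearMap M (E.tw U η j) = η j := by
  have h : ∀ k, K.e1 (U.ri k j) = (1 : Matrix _ _ ℂ) k j := fun k =>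
    congrFun (congrFun U.e1_ri k) j
  simp only [tw, map_sum, Em.ctr_smul, E.one, h]
  rw [Finset.sum_eq_single j, Matrix.one_apply_eq, one_smul]
  · intro l _ hl
    rw [Matrix.one_apply_ne hl, zero_smul]
  · simp

theorem mem_Inv_iff {η : Fin U.n → M} :
    η ∈ E.Inv U ↔ ∀ a k, E.mu a (η k) = ∑ l, U.dr a l k • η l := by
  constructor
  · intro h a k
    refine E.rho_inj ?_
    have h1 : ∀ l, K.L a (U.r l k) = ∑ p, U.dr a p k • U.r l p := fun l => by
      have := congrFun (congrFun (U.L_r a) l) k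
      rw [map_apply, Matrix.mul_apply] at this
      rw [this]
      exact Finset.sum_congr rfl fun p _ => by rw [map_apply, mul_comm, Algebra.smul_def]
    simp only [E.L, h _, map_sum, map_smul, LinearMap.rTensor_tmul, Derivation.coeFn_coe, h1,
      sum_tmul, Finset.smul_sum, smul_tmul']
    exact Finset.sum_comm
  · intro h k
    have h1 : ∀ j, E.tw U η j = 1 ⊗ₜ η j := fun j => by
      rw [Em.const K (E.tw U η j) fun a => ?_, E.e1_tw]
      have h2 : ∀ k, K.L a (U.ri k j) = -∑ p, U.dr a k p • U.ri p j := fun k => by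
        have := congrFun (congrFun (U.L_ri a) k) j
        rw [map_apply, Matrix.neg_apply, Matrix.mul_apply] at this
        rw [this]
        exact congrArg Neg.neg (Finset.sum_congr rfl fun p _ => by rw [map_apply, Algebra.smul_def])
      simp only [tw, map_sum, Em.dT_smul, ← E.L, h, map_smul, h2, Finset.sum_add_distrib, Em.nsm,
        Finset.sum_smul, Finset.smul_sum, Finset.sum_neg_distrib, smul_assoc]
      rw [Finset.sum_comm, neg_add_eq_zero]
      exact Finset.sum_congr rfl fun p _ => Finset.sum_congr rfl fun l _ => smul_comm _ _ _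
    rw [← E.sum_tw U]
    simp only [h1, smul_tmul', smul_eq_mul, mul_one]

/-- The Reynolds operator. -/
def rey : (Fin U.n → M) →ₗ[ℂ] (Fin U.n → M) where
  toFun η j := ctr K.haar M (E.tw U η j)
  map_add' η ζ := funext fun j => by
    simp only [tw, Pi.add_apply, map_add, smul_add, Finset.sum_add_distrib]
  map_smul' c η := funext fun j => by
    simp only [tw, Pi.smul_apply, map_smul, map_sum, RingHom.id_apply, Finset.smul_sum,
      smul_comm _ c]

theorem rey_apply (η : Fin U.n → M) (j : Fin U.n) :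
    E.rey U η j = ctr K.haar M (∑ k, U.ri k j • E.rho (η k)) := rfl

theorem rey_of_mem {η : Fin U.n → M} (h : η ∈ E.Inv U) : E.rey U η = η := funext fun j => by
  change ctr K.haar M (E.tw U η j) = _
  rw [E.tw_of_mem U h, ctr_tmul, K.haar_one, one_smul]

theorem rey_mem (η : Fin U.n → M) : E.rey U η ∈ E.Inv U := (E.mem_Inv_iff U).2 fun a j => by
  have h0 := Em.ctr_haar_R K a (E.tw U η j)
  have h2 : ∀ k, K.R a (U.ri k j) = -∑ p, U.dr a p j • U.ri k p := fun k => by
    have := congrFun (congrFun (U.R_ri a) k) j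
    rw [map_apply, Matrix.neg_apply, Matrix.mul_apply] at this
    rw [this]
    exact congrArg Neg.neg (Finset.sum_congr rfl fun p _ => by
      rw [map_apply, mul_comm, Algebra.smul_def])
  simp only [tw, map_sum, Em.dT_smul, map_add, h2, Finset.sum_add_distrib, Em.nsm, map_neg,
    Finset.sum_smul, Finset.sum_neg_distrib, smul_assoc, map_smul, ← E.R] at h0
  simp only [rey_apply, ← ctr_lTensor, map_sum, Em.lT_smul, Finset.smul_sum]
  rw [neg_add_eq_zero] at h0
  rw [← h0]
  exact Finset.sum_comm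

variable {E E'}

/-- The map `u` is equivariant. -/
def Hom (E : CM K M) (E' : CM K N) (u : M →ₗ[ℂ] N) : Prop :=
  ∀ m, E'.rho (u m) = u.lTensor K.O.R (E.rho m)

theorem Hom.rey {u : M →ₗ[ℂ] N} (h : Hom E E' u) (η : Fin U.n → M) :
    E'.rey U (u ∘ η) = u ∘ E.rey U η := funext fun j => by
  simp only [Function.comp_apply, rey_apply, h _, ← ctr_lTensor, map_sum, Em.lT_smul]

theorem Hom.inv {u : M →ₗ[ℂ] N} (h : Hom E E' u) {η : Fin U.n → M} (hη : η ∈ E.Inv U) :
    u ∘ η ∈ E'.Inv U := fun k => by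
  simp only [Function.comp_apply, h _, hη k, map_sum, LinearMap.lTensor_tmul]

theorem Hom.mu {u : M →ₗ[ℂ] N} (h : Hom E E' u) (a : Fin 3) (m : M) :
    u (E.mu a m) = E'.mu a (u m) := E'.rho_inj (by
  rw [E'.L, h, h, E.L, Em.lT_dT])

/-- The map on the multiplicity spaces. -/
def Hom.map {u : M →ₗ[ℂ] N} (h : Hom E E' u) : E.Inv U →ₗ[ℂ] E'.Inv U :=
  (u.compLeft (Fin U.n)).restrict fun _ hη => h.inv U hη

theorem Hom.map_val {u : M →ₗ[ℂ] N} (h : Hom E E' u) (η : E.Inv U) (k : Fin U.n) :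
    (h.map U η).1 k = u (η.1 k) := rfl

/-- An equivariant map with values in the image lifts to an equivariant map. -/
theorem inv_lift {u : M →ₗ[ℂ] N} (h : Hom E E' u)
    {η : Fin U.n → N} (hη : η ∈ E'.Inv U) (hu : ∀ k, ∃ m, u m = η k) :
    ∃ ζ ∈ E.Inv U, u ∘ ζ = η := by
  choose m hm using hu
  exact ⟨_, E.rey_mem U m, by rw [← h.rey, show u ∘ m = η from funext hm, E'.rey_of_mem U hη]⟩

end CM

end

end Vale.Agent.P286EX
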