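import Vale.Agent.P286EX6.Em

/-!
# The multiplicity space detects base changes of equivariant modules
-/

set_option linter.all false

namespace Vale.Agent.P286EX

open Matrix TensorProduct Vale.Agent.P286 Vale.Agent.P286E Vale.Agent.P286ES Vale.Agent.P286EXR

noncomputable section

variable {G : Grp} {K : GK G}

/-- The submodule `S` is stable under the operators. -/
structure Ops.Stab {N : Type} [AddCommGroup N] [Module ℂ N] (o : Ops N) (S : Set N) : Prop where
  y : ∀ a, ∀ n ∈ S, o.y a n ∈ S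
  nu : ∀ a, ∀ n ∈ S, o.nu a n ∈ S
  φ : ∀ n ∈ S, o.φ n ∈ S
  ψ : ∀ n ∈ S, o.ψ n ∈ S
  al : ∀ n ∈ S, o.al n ∈ S
  be : ∀ n ∈ S, o.be n ∈ S

section

variable {M N : Type} [AddCommGroup M] [Module ℂ M] [AddCommGroup N] [Module ℂ N] {U : Rep K}
  {u : M →ₗ[ℂ] N}

theorem EM.inj' (hU : U.Low) (E : EM K M) {E' : CM K N} {o' : Ops N} (h : CM.Hom E.toCM E' u)
    (ho : E.toOps.Hom o' u) (hi : ∀ η ∈ E.Inv U, u ∘ η = 0 → η = 0) : Function.Injective u := by
  refine (injective_iff_map_eq_zero u).2 fun m hm => ?_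
  have h1 := Em.vanish hU (fun a => Ops.kr u _ _ (h.mu a)) (E.rho ∘ₗ (LinearMap.ker u).subtype)
    (E.rho_inj.comp Subtype.val_injective) (fun a m => E.L a m)
    (E.rel.of_inj ho.ker_hom (fun _ _ => rfl) Subtype.val_injective) (fun η hη => by
      have h2 := hi (fun k => (η k : M)) ((E.mem_Inv_iff U).2 fun a k => by
        have h3 := congrArg Subtype.val (hη a k)
        rw [Submodule.coe_sum] at h3
        exact h3) (funext fun k => (η k).2)
      exact funext fun k => Subtype.ext (congrFun h2 k)) ⟨m, hm⟩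
  exact congrArg Subtype.val h1

theorem EM.surj' (hU : U.Low) {E : CM K M} (E' : EM K N) (h : CM.Hom E E'.toCM u)
    (ho : E'.toOps.Stab (LinearMap.range u))
    (hs : ∀ η ∈ E'.Inv U, ∃ ζ : Fin U.n → M, u ∘ ζ = η) : Function.Surjective u := by
  intro x
  let R := LinearMap.range u
  let o : Ops (N ⧸ R) := ⟨fun a => R.mapQ R _ (ho.y a), fun a => R.mapQ R _ (ho.nu a),
    R.mapQ R _ ho.φ, R.mapQ R _ ho.ψ, R.mapQ R _ ho.al, R.mapQ R _ ho.be⟩
  have h0 : E'.toOps.Hom o R.mkQ :=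
    ⟨fun _ _ => rfl, fun _ _ => rfl, fun _ => rfl, fun _ => rfl, fun _ => rfl, fun _ => rfl⟩
  have h1 := Em.vanish hU h.cok.mu h.cok.rho h.cok.rho_inj h.cok.L
    (E'.rel.of_surj h0 (fun _ _ => rfl) R.mkQ_surjective)
    (fun η hη => by
      obtain ⟨ζ, h2, rfl⟩ := CM.inv_lift U h.cok_hom ((h.cok.mem_Inv_iff U).2 hη)
        fun k => R.mkQ_surjective _
      obtain ⟨ξ, rfl⟩ := hs ζ h2
      exact funext fun k => (Submodule.Quotient.mk_eq_zero _).2 ⟨ξ k, rfl⟩) (R.mkQ x)
  exact (Submodule.Quotient.mk_eq_zero _).1 h1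

end

variable {C C' M N Q : Type} [CommRing C] [CommRing C'] [Algebra ℂ C] [Algebra ℂ C'] [Algebra C C']
  [IsScalarTower ℂ C C'] [AddCommGroup M] [Module ℂ M] [Module C M] [IsScalarTower ℂ C M]
  [AddCommGroup N] [Module ℂ N] [Module C N] [Module C' N] [IsScalarTower C C' N]
  [IsScalarTower ℂ C' N] [AddCommGroup Q] [Module ℂ Q]

namespace Bc

/-- The map defined by a balanced bilinear map. -/
def tl (f : C' →ₗ[ℂ] M →ₗ[ℂ] Q) (h : ∀ (z : C) c m, f (z • c) m = f c (z • m)) :
    C' ⊗[C] M →ₗ[ℂ] Q where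
  toFun := TensorProduct.liftAddHom (LinearMap.toAddMonoidHom'.comp f.toAddMonoidHom) h
  map_add' := map_add _
  map_smul' a x := by
    induction x using TensorProduct.induction_on with
    | zero => simp
    | tmul c m => exact LinearMap.congr_fun (map_smul f a c) m
    | add x y hx hy => simp only [smul_add, map_add, hx, hy]

theorem tl_tmul (f : C' →ₗ[ℂ] M →ₗ[ℂ] Q) (h) (c : C') (m : M) : tl (C := C) f h (c ⊗ₜ m) = f c m :=
  rfl

variable (C M) in
/-- The elementary tensors. -/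
def mk : C' →ₗ[ℂ] M →ₗ[ℂ] C' ⊗[C] M :=
  LinearMap.mk₂ ℂ (fun c m => c ⊗ₜ m) add_tmul (fun a c m => (smul_tmul' a c m).symm) tmul_add
    fun a c m => by
      rw [← algebraMap_smul C a m, ← smul_tmul, algebraMap_smul, smul_tmul']

theorem mk_apply (c : C') (m : M) : mk C M c m = c ⊗ₜ m := rfl

variable (C) in
/-- The operator is linear. -/
def Li (g : Module.End ℂ M) : Prop := ∀ (z : C) m, g (z • m) = z • g m

variable (C') in
/-- The base change of a linear operator. -/
def bc (g : Module.End ℂ M) (h : Li C g) : Module.End ℂ (C' ⊗[C] M) :=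
  tl ((mk C M).compl₂ g) fun z c m => (smul_tmul z c (g m)).trans (congrArg (c ⊗ₜ ·) (h z m).symm)

theorem bc_tmul (g : Module.End ℂ M) (h : Li C g) (c : C') (m : M) :
    bc C' g h (c ⊗ₜ m) = c ⊗ₜ g m := rfl

/-- The base change of a first order operator. -/
def bd {pd : Derivation ℂ C C} {δ : Derivation ℂ C' C'}
    (hδ : ∀ z, δ (algebraMap C C' z) = algebraMap C C' (pd z)) (g y : Module.End ℂ M)
    (hy : Li C y) (h : ∀ (z : C) m, g (z • m) = z • g m + pd z • y m) :
    Module.End ℂ (C' ⊗[C] M) :=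
  tl ((mk C M).compl₂ g + ((mk C M).compl₂ y).comp δ.toLinearMap) fun z c m => by
    change (z • c) ⊗ₜ g m + δ (z • c) ⊗ₜ y m = c ⊗ₜ g (z • m) + δ c ⊗ₜ[C] y (z • m)
    rw [h, hy, tmul_add, ← smul_tmul, ← smul_tmul, ← smul_tmul, Algebra.smul_def z c,
      Derivation.leibniz, hδ, add_tmul, add_assoc, add_comm ((pd z • c) ⊗ₜ[C] y m),
      Algebra.smul_def, Algebra.smul_def (pd z), Algebra.smul_def z, smul_eq_mul, mul_comm c]
    rfl

theorem bd_tmul {pd : Derivation ℂ C C} {δ : Derivation ℂ C' C'}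
    (hδ : ∀ z, δ (algebraMap C C' z) = algebraMap C C' (pd z)) (g y : Module.End ℂ M) (hy) (h)
    (c : C') (m : M) : bd hδ g y hy h (c ⊗ₜ m) = c ⊗ₜ g m + δ c ⊗ₜ y m := rfl

end Bc

open Bc

variable (C) in
/-- The compatibility of the operators with the action of `C`. -/
structure Ops.Lin (o : Ops M) (pd : Derivation ℂ C C) : Prop where
  y : ∀ a, Li C (o.y a)
  nu : ∀ a (z : C) m, o.nu a (z • m) = z • o.nu a m + pd z • o.y a m
  φ : Li C o.φ
  ψ : Li C o.ψ
  al : Li C o.al
  be : Li C o.be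

variable {pd : Derivation ℂ C C} {δ : Derivation ℂ C' C'}
  (hδ : ∀ z, δ (algebraMap C C' z) = algebraMap C C' (pd z))

/-- The base change of the operators. -/
def Ops.Lin.bc {o : Ops M} (h : o.Lin C pd) : Ops (C' ⊗[C] M) :=
  ⟨fun a => Bc.bc C' _ (h.y a), fun a => bd hδ _ _ (h.y a) (h.nu a), Bc.bc C' _ h.φ,
    Bc.bc C' _ h.ψ, Bc.bc C' _ h.al, Bc.bc C' _ h.be⟩

theorem Ops.Lin.rel {o : Ops M} (h : o.Lin C pd) {L : Fin 3 → Module.End ℂ M}
    (hL : ∀ a, Li C (L a)) (r : o.Rel L) : (h.bc hδ).Rel fun a => Bc.bc C' _ (hL a) := by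
  refine ⟨⟨⟨fun a x => ?_, fun a x => ?_, fun a x => ?_⟩, fun a b x => ?_,
    fun x => ?_⟩, ⟨⟨fun a x => ?_, fun a x => ?_, fun a x => ?_⟩, fun a x => ?_,
    fun a b hab x => ?_, fun a x => ?_, fun a x => ?_, fun a x => ?_, fun a x => ?_,
    fun a x => ?_, fun a x => ?_⟩, fun x => ?_⟩ <;>
  (refine TensorProduct.induction_on x (by simp [qq]) (fun c m => ?_) fun x x' hx hx' => by
      simp only [qq, map_add] at hx hx' ⊢
      linear_combination (norm := abel1) hx + hx'
   simp only [qq, Ops.Lin.bc, map_add, bc_tmul, bd_tmul])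
  · rw [r.pos.vec.c0]
  · rw [r.pos.vec.c1, tmul_add]
  · rw [r.pos.vec.c2, tmul_sub]
  · rw [r.pos.comm]
  · rw [← tmul_add, ← tmul_add, r.pos.dot, tmul_zero]
  · rw [r.tan.vec.c0, r.pos.vec.c0]
  · rw [r.tan.vec.c1, r.pos.vec.c1, tmul_add, tmul_add]; abel
  · rw [r.tan.vec.c2, r.pos.vec.c2, tmul_sub, tmul_sub]; abel
  · rw [r.tan.c, tmul_add]; abel
  · rw [r.tan.c' a b hab, r.pos.comm]
  · rw [r.tan.φL]
  · rw [r.tan.φy]
  · rw [r.tan.ψy]
  · rw [r.tan.rot, tmul_sub, r.pos.comm (a + 2)]; abel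
  · rw [r.tan.ξφ, tmul_add, r.tan.φy]; abel
  · rw [r.tan.ξξ, tmul_sub, r.pos.comm (a + 2), r.tan.c' (a + 1) (a + 2) (by revert a; decide),
      r.tan.c' (a + 2) (a + 1) (by revert a; decide)]
    abel
  · rw [← tmul_add, ← tmul_add, ← tmul_add, ← map_add, ← map_add]
    exact congrArg (c ⊗ₜ ·) (r.bez m)

namespace CM

variable {E : CM K M}

theorem Lin.mu (h : E.Lin C) (a : Fin 3) : Li C (E.mu a) := fun z m => ((h z).mu a m).symm

variable (C') in
/-- The base change of a rational representation. -/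
def Lin.bc (h : E.Lin C) : CM K (C' ⊗[C] M) where
  mu a := Bc.bc C' _ (h.mu a)
  rho := tl (((LinearMap.lTensorHom K.O.R).comp (Bc.mk C M)).compl₂ E.rho) fun z c m => by
    change (Bc.mk C M (z • c)).lTensor _ (E.rho m) = (Bc.mk C M c).lTensor _ (E.rho (z • m))
    rw [show E.rho (z • m) = _ from h z m, ← LinearMap.lTensor_comp_apply]
    exact congrArg (fun g => LinearMap.lTensor K.O.R g (E.rho m))
      (LinearMap.ext fun m => smul_tmul z c m)
  one x := by
    induction x using TensorProduct.induction_on with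
    | zero => simp
    | add x x' hx hx' => simp only [map_add, hx, hx']
    | tmul c m => exact (ctr_lTensor _ (Bc.mk C M c) _).trans (congrArg _ (E.one m))
  L a x := by
    induction x using TensorProduct.induction_on with
    | zero => simp
    | add x x' hx hx' => simp only [map_add, hx, hx']
    | tmul c m => exact (congrArg ((Bc.mk C M c).lTensor _) (E.L a m)).trans (Em.lT_dT _ _ _)
  R a x := by
    induction x using TensorProduct.induction_on with
    | zero => simp
    | add x x' hx hx' => simp only [map_add, hx, hx']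
    | tmul c m =>
      refine Eq.trans ?_ ((congrArg ((Bc.mk C M c).lTensor _) (E.R a m)).trans (Em.lT_dT _ _ _))
      change LinearMap.lTensor _ _ ((Bc.mk C M c).lTensor _ (E.rho m)) = _
      rw [← LinearMap.lTensor_comp_apply, ← LinearMap.lTensor_comp_apply]
      rfl

theorem Lin.bc_rho (h : E.Lin C) (c : C') (m : M) :
    (h.bc C').rho (c ⊗ₜ m) = (Bc.mk C M c).lTensor _ (E.rho m) := rfl

theorem Lin.bc_lin (h : E.Lin C) : (h.bc C').Lin C' := fun b x => by
  induction x using TensorProduct.induction_on with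
  | zero => simp
  | add x x' hx hx' => simp only [map_add, hx, hx']
  | tmul c m =>
    change (h.bc C').rho ((b • c) ⊗ₜ m) = _
    rw [h.bc_rho, h.bc_rho, ← LinearMap.lTensor_comp_apply]
    rfl

end CM

variable [IsScalarTower ℂ C N]

/-- **The multiplicity space detects base changes.** -/
theorem EM.bc_iff {U : Rep K} (hU : U.Low) (E : EM K M) (E' : EM K N) (hE : E.Lin C)
    (hE' : E'.Lin C') (t : M →ₗ[C] N) (ht : CM.Hom E.toCM E'.toCM (t.restrictScalars ℂ))
    (ho : E.toOps.Lin C pd) (o' : Ops N) (ho' : o'.Lin C' δ)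
    (hδ : ∀ z, δ (algebraMap C C' z) = algebraMap C C' (pd z))
    (hoo : E.toOps.Hom o' (t.restrictScalars ℂ))
    (hS : ∀ S : Submodule C' N, o'.Stab S → (∀ a, ∀ n ∈ S, E'.mu a n ∈ S) → E'.toOps.Stab S) :
    IsBaseChange C' (hE.map U hE' t _ (fun _ => rfl) ht) ↔ IsBaseChange C' t := by
  refine ⟨fun hb => ?_, hE.baseChange U hE' t _ _ ht⟩
  let Φ : C' ⊗[C] M →ₗ[C'] N := (TensorProduct.isBaseChange C M C').lift t
  have hΦ : ∀ c m, Φ (c ⊗ₜ m) = c • t m := fun c m => by
    rw [← (TensorProduct.isBaseChange C M C').lift_eq t m, ← map_smul, TensorProduct.mk_apply,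
      smul_tmul', smul_eq_mul, mul_one]
  let P : EM K (C' ⊗[C] M) :=
    { toCM := hE.bc C'
      toOps := ho.bc hδ
      rel := by
        have h1 : ∀ a, Li C (nm K E.mu a) := fun a z m => by
          rw [nm_apply, nm_apply, hE.mu, smul_comm]
        have h2 : nm K (hE.bc C').mu = fun a => Bc.bc C' _ (h1 a) :=
          funext fun a => LinearMap.ext fun x => by
            induction x using TensorProduct.induction_on with
            | zero => simp
            | add x x' hx hx' => simp only [map_add, hx, hx']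
            | tmul c m => exact (map_smul (Bc.mk C M c) _ _).symm
        rw [h2]
        exact ho.rel hδ h1 E.rel }
  have hc : CM.Hom P.toCM E'.toCM (Φ.restrictScalars ℂ) := fun x => by
    induction x using TensorProduct.induction_on with
    | zero => simp
    | add x x' hx hx' => simp only [map_add, hx, hx']
    | tmul c m =>
      change E'.rho (Φ (c ⊗ₜ m)) = LinearMap.lTensor _ _ ((Bc.mk C M c).lTensor _ (E.rho m))
      rw [hΦ, show E'.rho (c • t m) = _ from hE' c (t m), show E'.rho (t m) = _ from ht m,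
        ← LinearMap.lTensor_comp_apply, ← LinearMap.lTensor_comp_apply]
      exact congrArg (fun g => LinearMap.lTensor K.O.R g (E.rho m))
        (LinearMap.ext fun m => (hΦ c m).symm)
  have h1 : ∀ (g : Module.End ℂ M) (hg : Li C g) (g' : Module.End ℂ N), Li C' g' →
      (∀ m, t (g m) = g' (t m)) → ∀ x, Φ (Bc.bc C' g hg x) = g' (Φ x) := fun g hg g' hg' e x => by
    induction x using TensorProduct.induction_on with
    | zero => simp
    | add x x' hx hx' => simp only [map_add, hx, hx']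
    | tmul c m => rw [bc_tmul, hΦ, hΦ, hg', e]
  have hp : P.toOps.Hom o' (Φ.restrictScalars ℂ) :=
    ⟨fun a => h1 _ (ho.y a) _ (ho'.y a) (hoo.y a), fun a x => by
      change Φ (bd hδ _ _ (ho.y a) (ho.nu a) x) = o'.nu a (Φ x)
      induction x using TensorProduct.induction_on with
      | zero => simp
      | add x x' hx hx' => simp only [map_add, hx, hx']
      | tmul c m =>
        rw [bd_tmul, map_add, hΦ, hΦ, hΦ, ho'.nu]
        exact congrArg₂ (fun x y => c • x + δ c • y) (hoo.nu a m) (hoo.y a m),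
      h1 _ ho.φ _ ho'.φ hoo.φ, h1 _ ho.ψ _ ho'.ψ hoo.ψ, h1 _ ho.al _ ho'.al hoo.al,
      h1 _ ho.be _ ho'.be hoo.be⟩
  have hι : CM.Hom E.toCM P.toCM (Bc.mk C M (1 : C')) := fun _ => rfl
  have b1 := hE.baseChange U hE.bc_lin (TensorProduct.mk C C' M 1) _ (fun _ => rfl) hι
    (TensorProduct.isBaseChange C M C')
  let Ψ := hE.bc_lin.map U hE' Φ _ (fun _ => rfl) hc
  have e1 : Ψ ∘ₗ b1.equiv.toLinearMap = hb.equiv.toLinearMap :=
    (TensorProduct.isBaseChange C _ C').algHom_ext _ _ fun η => by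
      change Ψ (b1.equiv (1 ⊗ₜ η)) = hb.equiv (1 ⊗ₜ η)
      rw [b1.equiv_tmul, hb.equiv_tmul, one_smul, one_smul]
      exact Subtype.ext (funext fun k => (hΦ 1 _).trans (one_smul _ _))
  have e2 : Function.Bijective Ψ := (Function.Bijective.of_comp_iff _ b1.equiv.bijective).1 (by
    rw [show Ψ ∘ b1.equiv = hb.equiv from funext (LinearMap.congr_fun e1)]
    exact hb.equiv.bijective)
  refine IsBaseChange.of_equiv (LinearEquiv.ofBijective Φ ⟨P.inj' hU hc hp fun η hη h0 =>
    congrArg Subtype.val ((injective_iff_map_eq_zero _).1 e2.1 ⟨η, hη⟩ (Subtype.ext h0)),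
    E'.surj' hU hc (hS (LinearMap.range Φ) ⟨fun a => ?_, fun a => ?_, ?_, ?_, ?_, ?_⟩ fun a => ?_)
      fun η hη => ?_⟩) fun m => (hΦ 1 m).trans (one_smul _ _)
  rotate_right
  · obtain ⟨ζ, hζ⟩ := e2.2 ⟨η, hη⟩
    exact ⟨ζ.1, congrArg Subtype.val hζ⟩
  all_goals rintro _ ⟨x, rfl⟩
  exacts [⟨_, hp.y a x⟩, ⟨_, hp.nu a x⟩, ⟨_, hp.φ x⟩, ⟨_, hp.ψ x⟩, ⟨_, hp.al x⟩, ⟨_, hp.be x⟩,
    ⟨_, hc.mu a x⟩]

end

end Vale.Agent.P286EX
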