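import Vale.Agent.P286EX6.Bc
import Vale.Agent.P286E67.Refl

/-!
# Flat base change on cohomology
-/

set_option linter.all false

namespace Vale.Agent.P286EX

open TensorProduct Vale.Agent.P286 Vale.Agent.P286.H847 Vale.Agent.P286E Vale.Agent.P286EG Kun

noncomputable section

/-- A presentation of the cohomology of a three-term complex. -/
structure Prs {X₁ X₂ X₃ Z H : Type} [AddCommGroup X₂] [AddCommGroup X₃] [AddCommGroup Z]
    [AddCommGroup H] (d₁ : X₁ → X₂) (d₂ : X₂ → X₃) (i : Z →+ X₂) (dz : X₁ → Z) (p : Z →+ H) :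
    Prop where
  inj : Function.Injective i
  ker : ∀ x, d₂ x = 0 ↔ ∃ z, i z = x
  fac : ∀ x, i (dz x) = d₁ x
  sur : Function.Surjective p
  ex : ∀ z, p z = 0 ↔ ∃ x, dz x = z

theorem hiso_iff {X₁ X₂ X₃ Z H Y₁ Y₂ Y₃ Z' H' : Type} [AddCommGroup X₂] [AddCommGroup X₃]
    [AddCommGroup Z] [AddCommGroup H] [AddCommGroup Y₂] [AddCommGroup Y₃] [AddCommGroup Z']
    [AddCommGroup H'] {d₁ : X₁ → X₂} {d₂ : X₂ → X₃} {i : Z →+ X₂} {dz : X₁ → Z} {p : Z →+ H}
    {e₁ : Y₁ → Y₂} {e₂ : Y₂ → Y₃} {i' : Z' →+ Y₂} {dz' : Y₁ → Z'} {p' : Z' →+ H'}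
    (h : Prs d₁ d₂ i dz p) (h' : Prs e₁ e₂ i' dz' p') (u : X₂ → Y₂) (uZ : Z → Z') (uH : H →+ H')
    (h1 : ∀ z, i' (uZ z) = u (i z)) (h2 : ∀ z, p' (uZ z) = uH (p z)) :
    St.HIso d₁ d₂ e₁ e₂ u ↔ Function.Bijective uH := by
  constructor
  · rintro ⟨a, b⟩
    refine ⟨(injective_iff_map_eq_zero _).2 fun m hm => ?_, fun m => ?_⟩
    · obtain ⟨z, rfl⟩ := h.sur m
      obtain ⟨y, hy⟩ := (h'.ex _).1 ((h2 z).trans hm)
      obtain ⟨x, hx⟩ := a (i z) ((h.ker _).2 ⟨z, rfl⟩) ⟨y, by rw [← h'.fac, hy, h1]⟩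
      exact (h.ex z).2 ⟨x, h.inj ((h.fac x).trans hx)⟩
    · obtain ⟨z', rfl⟩ := h'.sur m
      obtain ⟨x, hx, y, hy⟩ := b (i' z') ((h'.ker _).2 ⟨z', rfl⟩)
      obtain ⟨z, rfl⟩ := (h.ker x).1 hx
      refine ⟨p z, (h2 z).symm.trans (sub_eq_zero.1 ?_).symm⟩
      rw [← map_sub]
      exact (h'.ex _).2 ⟨y, h'.inj (by rw [h'.fac, hy, map_sub, h1])⟩
  · intro hb
    refine ⟨?_, fun y hy => ?_⟩
    · rintro x hx ⟨y, hy⟩
      obtain ⟨z, rfl⟩ := (h.ker x).1 hx
      have e : dz' y = uZ z := h'.inj (by rw [h'.fac, hy, h1])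
      obtain ⟨x, hx⟩ := (h.ex z).1 ((injective_iff_map_eq_zero _).1 hb.1 _
        ((h2 z).symm.trans ((h'.ex _).2 ⟨y, e⟩)))
      exact ⟨x, by rw [← h.fac, hx]⟩
    · obtain ⟨z', rfl⟩ := (h'.ker y).1 hy
      obtain ⟨m, hm⟩ := hb.2 (p' z')
      obtain ⟨z, rfl⟩ := h.sur m
      obtain ⟨y, e⟩ := (h'.ex (z' - uZ z)).1 (by rw [map_sub, h2, hm, sub_self])
      exact ⟨i z, (h.ker _).2 ⟨z, rfl⟩, y, by rw [← h'.fac, e, map_sub, h1]⟩

variable {A B : Type} [CommRing A] [CommRing B]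

theorem Prs.tens {X₁ X₂ X₃ Z H : Type} [AddCommGroup X₁] [AddCommGroup X₂] [AddCommGroup X₃]
    [AddCommGroup Z] [AddCommGroup H] [Module A X₁] [Module A X₂] [Module A X₃] [Module A Z]
    [Module A H] {d₁ : X₁ →ₗ[A] X₂} {d₂ : X₂ →ₗ[A] X₃} {i : Z →ₗ[A] X₂} {dz : X₁ →ₗ[A] Z}
    {p : Z →ₗ[A] H} (h : Prs d₁ d₂ i.toAddMonoidHom dz p.toAddMonoidHom) (V : Type)
    [AddCommGroup V] [Module A V] [Module.Flat A V] :
    Prs (d₁.lTensor V) (d₂.lTensor V) (i.lTensor V).toAddMonoidHom (dz.lTensor V)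
      (p.lTensor V).toAddMonoidHom :=
  ⟨Module.Flat.lTensor_preserves_injective_linearMap i h.inj,
    Module.Flat.lTensor_exact V (f := i) (g := d₂) h.ker, fun x => by
      change i.lTensor V (dz.lTensor V x) = _
      rw [← LinearMap.lTensor_comp_apply, show i ∘ₗ dz = d₁ from LinearMap.ext h.fac],
    LinearMap.lTensor_surjective V h.sur, Module.Flat.lTensor_exact V (f := dz) (g := p) h.ex⟩

/-- The cohomology as a module. -/
def HT (M : AG A) (q : ℤ) : Type := Hn M.G q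

instance (M : AG A) (q : ℤ) : AddCommGroup (HT M q) := inferInstanceAs (AddCommGroup (Hn M.G q))

instance (M : AG A) (q : ℤ) : Module A (HT M q) := Hn.mod M q

/-- The cycles as a module. -/
def ZT (M : AG A) (q : ℤ) : Type := Zn M.G q

instance (M : AG A) (q : ℤ) : AddCommGroup (ZT M q) := inferInstanceAs (AddCommGroup (Zn M.G q))

/-- The action on the cycles. -/
def zfn (M : AG A) (q : ℤ) : A →+* Module.End ℂ (Zn M.G q) where
  toFun a := Hn.zmap (fnG M a) q
  map_one' := LinearMap.ext fun x => Subtype.ext (LinearMap.congr_fun (map_one M.fn) x.1)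
  map_mul' a b := LinearMap.ext fun x => Subtype.ext (LinearMap.congr_fun (map_mul M.fn a b) x.1)
  map_zero' := LinearMap.ext fun x => Subtype.ext (LinearMap.congr_fun (map_zero M.fn) x.1)
  map_add' a b := LinearMap.ext fun x => Subtype.ext (LinearMap.congr_fun (map_add M.fn a b) x.1)

instance (M : AG A) (q : ℤ) : Module A (ZT M q) := Module.compHom (Zn M.G q) (zfn M q)

/-- The inclusion of the cycles. -/
def ziT (M : AG A) (q : ℤ) : ZT M q →ₗ[A] M.T q :=
  ⟨⟨fun x : Zn M.G q => M.el x.1 x.2.1, fun _ _ => rfl⟩, fun _ _ => rfl⟩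

/-- The differential with values in the cycles. -/
def dzT (M : AG A) (q : ℤ) : M.T (q - 1) →ₗ[A] ZT M q :=
  ⟨⟨dZ M.G q, map_add (dZ M.G q)⟩, fun a x => Subtype.ext (M.d a _)⟩

/-- The projection. -/
def prT (M : AG A) (q : ℤ) : ZT M q →ₗ[A] HT M q :=
  ⟨⟨Hn.pr M.G q, map_add (Hn.pr M.G q)⟩, fun _ _ => rfl⟩

theorem prs (M : AG A) (q : ℤ) : Prs (M.dT (q - 1) q) (M.dT q (q + 1)) (ziT M q).toAddMonoidHom
    (dzT M q) (prT M q).toAddMonoidHom where
  inj x y h := Subtype.ext (congrArg (M.val q) h)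
  ker x := ⟨fun hx => ⟨(⟨M.val q x, M.val_mem x, (M.val_d rfl x).symm.trans
      ((congrArg (M.val _) hx).trans (map_zero _))⟩ : Zn M.G q), rfl⟩, by
    rintro ⟨z, rfl⟩
    exact M.val_inj ((M.val_d rfl _).trans ((show Zn M.G q from z).2.2.trans (map_zero _).symm))⟩
  fac x := M.val_inj (M.val_d (by ring) x).symm
  sur := Hn.pr_surj
  ex z := Hn.pr_eq_zero.trans ⟨fun ⟨y, hy, e⟩ => ⟨M.el y hy, Subtype.ext e⟩,
    fun ⟨y, e⟩ => ⟨M.val _ y, M.val_mem y, congrArg Subtype.val e⟩⟩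

variable {f : A →+* B} {M : AG A} {N : AG B} {t : GD.Hom M.G N.G}

/-- The map on cohomology. -/
def hT (M : AG A) (N : AG B) (t : GD.Hom M.G N.G) (q : ℤ) : HT M q →+ HT N q :=
  (Hn.map t q).toAddMonoidHom

theorem hT_sl (ht : Sl f M N t) (q : ℤ) (a : A) (x : HT M q) :
    hT M N t q (a • x) = f a • hT M N t q x :=
  Hn.map_sq (u := fnG M a) (v' := fnG N (f a)) (ht a) x

/-- **Flat base change on cohomology.** -/
theorem db_iff_bij [Algebra ℂ A] (hf : f.Flat) (ht : Sl f M N t) :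
    DB f M N t ↔ ∀ q, Function.Bijective (ExtS.lift f (hT M N t q) (hT_sl ht q)) := by
  have key : ∀ q, St.HIso ((bcx f M.mc).d (q - 1) q) ((bcx f M.mc).d q (q + 1))
      (N.mc.d (q - 1) q) (N.mc.d q (q + 1)) ((bm _ ht.sl).f q) ↔
      Function.Bijective (ExtS.lift f (hT M N t q) (hT_sl ht q)) := fun q => by
    let _ : Module A B := Module.compHom B f
    have : Module.Flat A B := hf
    let u : ZT M q →+ ZT N q := (Hn.zmap t q).toAddMonoidHom
    have hu : ∀ (a : A) x, u (a • x) = f a • u x := fun a x => Subtype.ext (ht a _)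
    refine hiso_iff ((prs M q).tens B) (prs N q) _ (ExtS.lift f u hu) _ (fun z => ?_) fun z => ?_
    · induction z using Br.el_ind with
      | h0 => exact (congrArg _ (map_zero _)).trans ((map_zero _).trans
          ((congrArg _ (map_zero _)).trans (map_zero _)).symm)
      | ht b x => rfl
      | ha x y hx hy => exact (congrArg _ (map_add _ _ _)).trans ((map_add _ _ _).trans
          ((congrArg₂ (· + ·) hx hy).trans
            ((congrArg _ (map_add _ _ _)).trans (map_add _ _ _)).symm))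
    · induction z using Br.el_ind with
      | h0 => simp only [map_zero]
      | ht b x => rfl
      | ha x y hx hy => simp only [map_add, hx, hy]
  rw [db_flat hf ht]
  refine ⟨fun h q => (key q).1 (h _ _ _ (by ring) rfl), fun h i j k hi hj => ?_⟩
  obtain rfl : i = j - 1 := by omega
  subst hj
  exact (key j).2 (h j)

theorem bij_iff [Algebra A B] {P Q : Type} [AddCommGroup P] [Module A P] [AddCommGroup Q]
    [Module A Q] [Module B Q] [IsScalarTower A B Q] (t : P →ₗ[A] Q) {W : Type} [AddCommGroup W]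
    (e : W ≃+ B ⊗[A] P) (l : W →+ Q) (h : ∀ b x, l (e.symm (b ⊗ₜ x)) = b • t x) :
    IsBaseChange B t ↔ Function.Bijective l := by
  let Φ : B ⊗[A] P →ₗ[B] Q := (TensorProduct.isBaseChange A P B).lift t
  have hΦ : ∀ c m, Φ (c ⊗ₜ m) = c • t m := fun c m => by
    rw [← (TensorProduct.isBaseChange A P B).lift_eq t m, ← map_smul, TensorProduct.mk_apply,
      smul_tmul', smul_eq_mul, mul_one]
  have e1 : l ∘ e.symm = Φ := funext fun x => by
    induction x using TensorProduct.induction_on with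
    | zero => simp
    | tmul b x => exact (h b x).trans (hΦ b x).symm
    | add x y hx hy => simp only [Function.comp_apply, map_add] at hx hy ⊢; rw [hx, hy]
  rw [← Function.Bijective.of_comp_iff _ e.symm.bijective, e1]
  refine ⟨fun hb => ?_, fun hb => IsBaseChange.of_equiv (LinearEquiv.ofBijective Φ hb)
    fun m => (hΦ 1 m).trans (one_smul _ _)⟩
  rw [show Φ = hb.equiv.toLinearMap from (TensorProduct.isBaseChange A P B).algHom_ext _ _
    fun m => (hΦ 1 m).trans (hb.equiv_tmul 1 m).symm]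
  exact hb.equiv.bijective

section Core

variable {G : Grp} {K : GK G} {C C' M N P Q : Type} [CommRing C] [CommRing C'] [Algebra ℂ C]
  [Algebra ℂ C'] [AddCommGroup M] [Module ℂ M] [Module C M] [IsScalarTower ℂ C M]
  [AddCommGroup N] [Module ℂ N] [Module C' N] [IsScalarTower ℂ C' N] [AddCommGroup P] [Module C P]
  [AddCommGroup Q] [Module C' Q]

theorem EM.core {U : Rep K} (hU : U.Low) (κ : C →ₐ[ℂ] C') (E : EM K M) (E' : EM K N)
    (hE : E.Lin C) (hE' : E'.Lin C') (t : M →ₗ[ℂ] N)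
    (hs : ∀ (a : C) x, t.toAddMonoidHom (a • x) = (κ : C →+* C') a • t.toAddMonoidHom x)
    (ht : CM.Hom E.toCM E'.toCM t) {pd : Derivation ℂ C C} {δ : Derivation ℂ C' C'}
    (ho : E.toOps.Lin C pd) (o' : Ops N) (ho' : o'.Lin C' δ) (hδ : ∀ z, δ (κ z) = κ (pd z))
    (hoo : E.toOps.Hom o' t)
    (hS : ∀ S : Submodule C' N, o'.Stab S → (∀ a, ∀ n ∈ S, E'.mu a n ∈ S) → E'.toOps.Stab S)
    (ρ : P →+ Q) (hρ : ∀ (a : C) x, ρ (a • x) = (κ : C →+* C') a • ρ x)
    (e : P →+ E.Inv U) (e' : Q →+ E'.Inv U) (he : Function.Bijective e)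
    (he' : Function.Bijective e') (h1 : ∀ (a : C) x k, (e (a • x)).1 k = a • (e x).1 k)
    (h1' : ∀ (a : C') x k, (e' (a • x)).1 k = a • (e' x).1 k)
    (h2 : ∀ x k, (e' (ρ x)).1 k = t ((e x).1 k)) :
    Function.Bijective (ExtS.lift (κ : C →+* C') ρ hρ) ↔
      Function.Bijective (ExtS.lift (κ : C →+* C') t.toAddMonoidHom hs) := by
  let _ := (κ : C →+* C').toAlgebra
  have : IsScalarTower ℂ C C' := .of_algebraMap_eq fun c => (κ.commutes c).symm
  let _ : Module C N := Module.compHom N (κ : C →+* C')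
  have : IsScalarTower C C' N := .of_compHom C C' N
  have : IsScalarTower ℂ C N := .of_algebraMap_smul fun c n =>
    (congrArg (· • n) (κ.commutes c)).trans (algebraMap_smul C' c n)
  let _ : Module C Q := Module.compHom Q (κ : C →+* C')
  have : IsScalarTower C C' Q := .of_compHom C C' Q
  let t' : M →ₗ[C] N := ⟨t.toAddHom, hs⟩
  let ρ' : P →ₗ[C] Q := ⟨⟨ρ, map_add ρ⟩, hρ⟩
  let ε : P →ₗ[C] hE.inv U := ⟨⟨e, map_add e⟩, fun a x => Subtype.ext (funext (h1 a x))⟩
  let ε' : Q →ₗ[C'] hE'.inv U := ⟨⟨e', map_add e'⟩, fun a x => Subtype.ext (funext (h1' a x))⟩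
  rw [← bij_iff ρ' (AddEquiv.refl _) _ (fun _ _ => rfl),
    ← bij_iff t' (AddEquiv.refl _) _ (fun _ _ => rfl),
    ← EM.bc_iff hU E E' hE hE' t' ht ho o' ho' hδ hoo hS]
  exact IsBaseChange.iff_of_equiv_comm (LinearEquiv.ofBijective ε he)
    (LinearEquiv.ofBijective ε' he') (LinearMap.ext fun x => Subtype.ext (funext fun k =>
      (h2 x k).symm))

end Core

/-- The chart over `C'` is the base change of the chart over `C`. -/
theorem po_of {C C' A B : Type} [CommRing C] [CommRing C'] [CommRing A] [CommRing B] [Algebra ℂ C]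
    [Algebra ℂ C'] [Algebra ℂ A] [Algebra ℂ B] (κ : C →ₐ[ℂ] C') (x : C →ₐ[ℂ] A) (x' : C' →ₐ[ℂ] B)
    (φ : A →ₐ[ℂ] B) (Y : Fin 3 → A) (Y' : Fin 3 → B) (f : C) (f' c ci : C') (hc : ci * c = 1)
    (hf : κ f = c ^ 2 * f') (sq : Y ⬝ᵥ Y = x f) (hx : ∀ z, φ (x z) = x' (κ z))
    (hy : ∀ a, φ (Y a) = x' c * Y' a)
    (lift : ∀ (T : Type) [CommRing T] [Algebra ℂ T] (u : C' →ₐ[ℂ] T) (Z : Fin 3 → T),
      Z ⬝ᵥ Z = u f' → ∃ ψ : B →ₐ[ℂ] T, (∀ z, ψ (x' z) = u z) ∧ ∀ a, ψ (Y' a) = Z a)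
    (ext : ∀ (T : Type) [CommRing T] [Algebra ℂ T] (u v : A →ₐ[ℂ] T), (∀ z, u (x z) = v (x z)) →
      (∀ a, u (Y a) = v (Y a)) → u = v)
    (ext' : ∀ u v : B →ₐ[ℂ] B, (∀ z, u (x' z) = v (x' z)) → (∀ a, u (Y' a) = v (Y' a)) → u = v) :
    ((κ : C →+* C').Flat → (φ : A →+* B).Flat) ∧
    ∀ (P Q : Type) [AddCommGroup P] [Module A P] [Module C P] [AddCommGroup Q] [Module B Q]
      [Module C' Q], (∀ (z : C) (p : P), z • p = x z • p) → (∀ (z : C') (p : Q), z • p = x' z • p) →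
      ∀ (t : P →+ Q) (h : ∀ (a : A) p, t (a • p) = (φ : A →+* B) a • t p)
        (h' : ∀ (a : C) p, t (a • p) = (κ : C →+* C') a • t p),
      Function.Bijective (ExtS.lift (κ : C →+* C') t h') ↔
        Function.Bijective (ExtS.lift (φ : A →+* B) t h) := by
  let _ := (κ : C →+* C').toAlgebra
  let _ := (x : C →+* A).toAlgebra
  let _ := (x' : C' →+* B).toAlgebra
  let _ := (φ : A →+* B).toAlgebra
  let _ := ((x' : C' →+* B).comp (κ : C →+* C')).toAlgebra
  have : IsScalarTower C C' B := .of_algebraMap_eq fun _ => rfl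
  have : IsScalarTower C A B := .of_algebraMap_eq fun z => (hx z).symm
  have : IsScalarTower ℂ C C' := .of_algebraMap_eq fun c => (κ.commutes c).symm
  have : IsScalarTower ℂ C A := .of_algebraMap_eq fun c => (x.commutes c).symm
  have : IsScalarTower ℂ C' B := .of_algebraMap_eq fun c => (x'.commutes c).symm
  let iL : C' →ₐ[ℂ] C' ⊗[C] A := Algebra.TensorProduct.includeLeft
  let iR : A →ₐ[ℂ] C' ⊗[C] A := Algebra.TensorProduct.includeRight.restrictScalars ℂ
  have e0 : ∀ z, iR (x z) = iL (κ z) := fun z =>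
    (Algebra.TensorProduct.includeRight.commutes z : _)
  obtain ⟨ψ, h1, h2⟩ := lift (C' ⊗[C] A) iL (fun a => iL ci * iR (Y a)) (by
    have e1 : iL ci * iL ci * iR (Y ⬝ᵥ Y) = iL f' := by
      rw [sq, e0, ← map_mul, ← map_mul, hf]
      exact congrArg iL (by linear_combination (ci * c + 1) * f' * hc)
    rw [← e1]
    simp only [dotProduct, Fin.sum_univ_three, map_add, map_mul]
    ring)
  let Φ : C' ⊗[C] A →ₐ[C'] B := Algebra.TensorProduct.lift (Algebra.ofId C' B)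
    (IsScalarTower.toAlgHom C A B) fun _ _ => Commute.all _ _
  have a1 : ∀ z, Φ (iL z) = x' z := fun z => (congrArg (x' z * ·) (map_one φ)).trans (mul_one _)
  have a2 : ∀ a, Φ (iR a) = φ a := fun a => (congrArg (· * φ a) (map_one x')).trans (one_mul _)
  have b1 : (Φ.restrictScalars ℂ).comp ψ = AlgHom.id ℂ B := ext' _ _
    (fun z => (congrArg Φ (h1 z)).trans (a1 z)) fun a => (congrArg Φ (h2 a)).trans (by
      rw [map_mul, a1, a2, hy, ← mul_assoc, ← map_mul, hc, map_one, one_mul]; rfl)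
  have b2 : ψ.comp φ = iR := ext _ _ _ (fun z => (congrArg ψ (hx z)).trans ((h1 _).trans
    (e0 z).symm)) fun a => (congrArg ψ (hy a)).trans (by
      rw [map_mul, h1, h2, ← mul_assoc, ← map_mul, mul_comm c, hc, map_one, one_mul])
  have b3 : ∀ w, ψ (Φ w) = w := fun w => by
    induction w using TensorProduct.induction_on with
    | zero => simp
    | add w w' h h' => rw [map_add, map_add, h, h']
    | tmul z a =>
      refine (map_mul ψ (x' z) (φ a)).trans ?_
      rw [h1, show ψ (φ a) = iR a from AlgHom.congr_fun b2 a]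
      exact (Algebra.TensorProduct.tmul_mul_tmul _ _ _ _).trans (by rw [mul_one, one_mul])
  have H : Algebra.IsPushout C C' A B := ⟨IsBaseChange.of_equiv (LinearEquiv.ofBijective
    Φ.toLinearMap ⟨Function.LeftInverse.injective b3, fun b => ⟨ψ b, AlgHom.congr_fun b1 b⟩⟩) a2⟩
  refine ⟨fun h => ?_, fun P Q _ _ _ _ _ _ hP hQ t h h' => ?_⟩
  · have : Module.Flat C C' := h
    exact Module.Flat.isBaseChange C A C' B H.symm.out
  · have : IsScalarTower C A P := .of_algebraMap_smul fun z p => (hP z p).symm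
    let e := (Algebra.IsPushout.cancelBaseChange C C' A B P).symm
    rw [← Function.Bijective.of_comp_iff (ExtS.lift (φ : A →+* B) t h) e.bijective]
    refine iff_of_eq (congrArg _ (Br.lift_eq _ t h' _ (fun w w' => ?_) fun b p => ?_))
    · exact (congrArg _ (map_add e w w')).trans (map_add _ _ _)
    · exact (congrArg _ (Algebra.IsPushout.cancelBaseChange_symm_tmul C C' A B P b p)).trans
        (hQ b (t p)).symm

end

end Vale.Agent.P286EX
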